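import Vale.Agent.P214.ODEF.Vp

/-!
# P214, block ODEF: the pointwise bounds (P1)-(P9) consumed by the curved ODE

`rhF = J^* cRm` is the ambient gradient of the base function `|ft|²/2`; it is tangent to the graph.
-/

open Set Filter Topology MeasureTheory Metric
open scoped RealInnerProductSpace ContDiff

set_option linter.all false

namespace Vale.Agent.P214.ODEF

open FV FM

variable {E : Type*} [NormedAddCommGroup E] [InnerProductSpace ℝ E] [FiniteDimensional ℝ E]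

/-- ambient gradient of the base function -/
noncomputable def rhF (T : Submodule ℝ E) (w : E → E) (h₁ : ℝ) (z Y : E) : E :=
  adj (Jm T w h₁ Y) (cRm T w z Y)

variable {T S : Submodule ℝ E} {w : E → E} {ε κ h₁ : ℝ} {z Y : E}

section

variable (H : Adm T w ε κ h₁)
include H

lemma inner_rhF_Dm (hY : ‖co T Y‖ < h₁) (v : E) :
    ⟪rhF T w h₁ z Y, Dm w Y (co T Y) v⟫ = ⟪cRm T w z Y, v⟫ :=
  inner_adj_Jm_Dm H hY _ v

lemma inner_cRm_gmF (hX : ft T w z Y ≠ 0) :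
    ⟪cRm T w z Y, gmF T w z Y⟫ = vpm T w z Y * ‖ft T w z Y‖ ^ 2 := by
  have h1 := norm_sq_ft_sub_PS H z Y
  have h2 : ‖ft T w z Y‖ ≠ 0 := norm_ne_zero_iff.2 hX
  unfold vpm
  field_simp
  linarith

/-- `⟨rh, om⟩ = 0` -/
lemma inner_rhF_omF (hY : ‖co T Y‖ < h₁) : ⟪rhF T w h₁ z Y, omF T w Y⟫ = 0 := by
  rw [omF_eq H, inner_rhF_Dm H hY, ← star_cRm H, inner_star, star_co, inner_zero_right]

/-- `⟨rh, xg⟩ = vp |ft|²` -/
lemma inner_rhF_xg (hY : ‖co T Y‖ < h₁) :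
    ⟪rhF T w h₁ z Y, zeF T w (gmF T w z) Y⟫ = vpm T w z Y * ‖ft T w z Y‖ ^ 2 := by
  unfold zeF
  rw [inner_rhF_Dm H hY]
  by_cases hX : ft T w z Y = 0
  · have h1 := norm_gmF_le_ft H z Y
    rw [hX, norm_zero] at h1
    have h2 : gmF T w z Y = 0 := norm_eq_zero.1 (le_antisymm h1 (norm_nonneg _))
    rw [h2, hX]; simp
  · exact inner_cRm_gmF H hX

/-- `⟨rh, ze⟩ = |ft|²` -/
lemma inner_rhF_ze (hY : ‖co T Y‖ < h₁) (hv : vpm T w z Y ≠ 0) :
    ⟪rhF T w h₁ z Y, zeF T w (beF T w z) Y⟫ = ‖ft T w z Y‖ ^ 2 := by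
  have h1 := inner_rhF_xg H (z := z) hY
  have h2 : zeF T w (beF T w z) Y = (vpm T w z Y)⁻¹ • zeF T w (gmF T w z) Y := by
    unfold zeF beF; rw [map_smul]
  rw [h2, inner_smul_right, h1]
  field_simp

/-- the ambient gradient is tangent to the graph -/
lemma PS_rhF (hY : ‖co T Y‖ < h₁) : PS T w Y (rhF T w h₁ z Y) = rhF T w h₁ z Y := by
  have hw := H.ref
  have h0 : co (planeOf T w Y) (rhF T w h₁ z Y) = 0 := by
    refine ext_inner_right ℝ fun s => ?_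
    rw [inner_co, inner_zero_left]
    -- write `s = D₀ v`
    have h1 := H.comp_Jm (T.starProjection Y)
    rw [hw.fderiv_Psi_eq (by rw [co_star, norm_zero]; exact H.hpos)] at h1
    have h2 : Dm w (T.starProjection Y) (co T (T.starProjection Y)) = D0 w Y := by
      ext v
      rw [Dm_apply, co_star, D0_apply, D0_apply, hw.fderiv_base]
      simp [Hw_apply]
    rw [h2] at h1
    set v := Jm T w h₁ (T.starProjection Y) s with hv
    have h3 : D0 w Y v = s := congrArg (fun L : E →L[ℝ] E => L s) h1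
    have h4 : co (planeOf T w Y) s = D0 w Y (co T v) := by
      have h5 := hw.PS_D0 Y v
      rw [h3] at h5
      rw [co_apply]
      show s - PS T w Y s = _
      rw [h5, ← h3, ← map_sub]; rfl
    have h6 : D0 w Y (co T v) = Dm w Y (co T Y) (co T v) := by
      rw [Dm_apply, hw.Hw_co, sub_zero]
    rw [h4, h6, inner_rhF_Dm H hY, ← star_cRm H, inner_star, star_co, inner_zero_right]
  rw [co_apply, sub_eq_zero] at h0
  exact h0.symm

lemma norm_rhF_le (z Y : E) : ‖rhF T w h₁ z Y‖ ≤ 3 / 2 * ‖ft T w z Y‖ := by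
  have he := eps_le H
  unfold rhF
  calc _ ≤ ‖Jm T w h₁ Y‖ * ‖cRm T w z Y‖ := norm_adj_apply_le _ _
    _ ≤ 4 / 3 * ((1 + ε) * ‖ft T w z Y‖) := by
        gcongr
        · exact H.norm_Jm_le Y
        · exact norm_cRm_le H z Y
    _ ≤ 4 / 3 * ((1 + 1 / 16) * ‖ft T w z Y‖) := by gcongr
    _ ≤ 3 / 2 * ‖ft T w z Y‖ := by
        have := norm_nonneg (ft T w z Y)
        linarith

/-- `|(1-P) rh|² ≤ e |rh|²` -/
lemma norm_sq_co_rhF_le (hY : ‖co T Y‖ < h₁) (hS : Module.finrank ℝ S = Module.finrank ℝ T) :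
    ‖co S (rhF T w h₁ z Y)‖ ^ 2
      ≤ FM.eS T w Y S.starProjection * ‖rhF T w h₁ z Y‖ ^ 2 := by
  have h1 := norm_sq_co_star_le (planeOf T w Y) S (rhF T w h₁ z Y)
  have h2 : (planeOf T w Y).starProjection (rhF T w h₁ z Y) = rhF T w h₁ z Y := PS_rhF H hY
  rw [h2] at h1
  have h3 : tilt S (planeOf T w Y).starProjection = FM.eS T w Y S.starProjection := by
    unfold FM.eS
    rw [tilt_star, tilt_star, H.ref.finrank_planeOf, hS, tr_comp_comm]
  rwa [h3] at h1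

/-- (P9) -/
lemma norm_sq_omF (Y : E) : ‖co T Y‖ ^ 2 ≤ ‖omF T w Y‖ ^ 2 ∧ ‖omF T w Y‖ ^ 2 ≤ 2 * ‖co T Y‖ ^ 2 := by
  have hw := H.ref
  have he := eps_le H
  have he0 := hw.eps_nonneg
  have h1 : ‖omF T w Y‖ ^ 2 = ‖co T Y‖ ^ 2 + ‖adj (fderiv ℝ w Y) (co T Y)‖ ^ 2 := by
    unfold omF
    rw [norm_sub_sq_real]
    have : ⟪co T Y, adj (fderiv ℝ w Y) (co T Y)⟫ = 0 := by
      rw [inner_co, hw.co_adj_fderiv, inner_zero_right]
    rw [this]; ring
  have h2 : ‖adj (fderiv ℝ w Y) (co T Y)‖ ≤ 1 / 16 * ‖co T Y‖ :=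
    (hw.norm_adj_fderiv_apply_le Y _).trans (by gcongr)
  constructor
  · rw [h1]; have := sq_nonneg ‖adj (fderiv ℝ w Y) (co T Y)‖; linarith
  · rw [h1]
    have : ‖adj (fderiv ℝ w Y) (co T Y)‖ ^ 2 ≤ (1 / 16 * ‖co T Y‖) ^ 2 := by gcongr
    nlinarith [sq_nonneg ‖co T Y‖]

lemma norm_omF_le (Y : E) : ‖omF T w Y‖ ≤ 17 / 16 * ‖co T Y‖ := by
  have hw := H.ref
  have he := eps_le H
  unfold omF
  calc _ ≤ ‖co T Y‖ + ‖adj (fderiv ℝ w Y) (co T Y)‖ := norm_sub_le _ _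
    _ ≤ ‖co T Y‖ + 1 / 16 * ‖co T Y‖ := by
        gcongr
        exact (hw.norm_adj_fderiv_apply_le Y _).trans (by gcongr)
    _ = _ := by ring

/-- (P4) -/
theorem inner_co_rhF_ze_ge (hY : ‖co T Y‖ < h₁) (hr : κ * ‖ft T w z Y‖ ≤ 1 / 8) (S : Submodule ℝ E) :
    (vpm T w z Y)⁻¹ * ‖co S (rhF T w h₁ z Y)‖ ^ 2
        - 4 * (κ * ‖co T Y‖) * ‖ft T w z Y‖ * ‖co S (rhF T w h₁ z Y)‖
      ≤ ⟪co S (rhF T w h₁ z Y), co S (zeF T w (beF T w z) Y)⟫ := by
  set r := rhF T w h₁ z Y with hrd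
  set ze := zeF T w (beF T w z) Y with hze
  have h1 : ‖ze - (vpm T w z Y)⁻¹ • r‖ ≤ 4 * (κ * ‖co T Y‖) * ‖ft T w z Y‖ :=
    norm_ze_sub_le H hY hr
  set d := ze - (vpm T w z Y)⁻¹ • r with hd
  have h2 : ze = (vpm T w z Y)⁻¹ • r + d := by rw [hd]; abel
  have h3 : ⟪co S r, co S ze⟫ = (vpm T w z Y)⁻¹ * ‖co S r‖ ^ 2 + ⟪co S r, co S d⟫ := by
    rw [h2, map_add, map_smul, inner_add_right, inner_smul_right, real_inner_self_eq_norm_sq]
  have h4 : |⟪co S r, co S d⟫| ≤ ‖co S r‖ * (4 * (κ * ‖co T Y‖) * ‖ft T w z Y‖) := by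
    calc _ ≤ ‖co S r‖ * ‖co S d‖ := abs_real_inner_le_norm _ _
      _ ≤ _ := by gcongr; exact (norm_co_le S d).trans h1
  have h5 := (abs_le.1 h4).1
  rw [h3]
  linarith

/-- (P5) -/
theorem abs_inner_omF_le (hY : ‖co T Y‖ < h₁) (z : E) (S : Submodule ℝ E) :
    |⟪omF T w Y, S.starProjection (zeF T w (gmF T w z) Y - rhF T w h₁ z Y)⟫|
      ≤ 5 * κ * ‖co T Y‖ ^ 2 * ‖ft T w z Y‖ := by
  have hk := H.ref.knn
  have h1 : ‖zeF T w (gmF T w z) Y - rhF T w h₁ z Y‖ ≤ 4 * (κ * ‖co T Y‖) * ‖ft T w z Y‖ :=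
    norm_xg_sub_le H hY z
  calc _ ≤ ‖omF T w Y‖ * ‖S.starProjection (zeF T w (gmF T w z) Y - rhF T w h₁ z Y)‖ :=
        abs_real_inner_le_norm _ _
    _ ≤ (17 / 16 * ‖co T Y‖) * (4 * (κ * ‖co T Y‖) * ‖ft T w z Y‖) := by
        gcongr
        · exact norm_omF_le H Y
        · exact (norm_star_le S _).trans h1
    _ ≤ _ := by
        have : 0 ≤ κ * ‖co T Y‖ ^ 2 * ‖ft T w z Y‖ := by positivity
        nlinarith

/-- (P6) -/
theorem abs_inner_co_rhF_xg_le (hY : ‖co T Y‖ < h₁) (z : E)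
    (hS : Module.finrank ℝ S = Module.finrank ℝ T) :
    |⟪co S (rhF T w h₁ z Y), co S (zeF T w (gmF T w z) Y)⟫|
      ≤ 6 * ‖ft T w z Y‖ ^ 2 * (FM.eS T w Y S.starProjection + (κ * ‖co T Y‖) ^ 2) := by
  have hk := H.ref.knn
  set r := rhF T w h₁ z Y with hrd
  set xg := zeF T w (gmF T w z) Y with hxg
  set X := ‖ft T w z Y‖ with hX
  set u := κ * ‖co T Y‖ with hu
  have hu0 : 0 ≤ u := by positivity
  have hX0 : 0 ≤ X := norm_nonneg _
  have heS : 0 ≤ FM.eS T w Y S.starProjection := tilt_nonneg S (planeOf T w Y)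
  set e := FM.eS T w Y S.starProjection with hed
  have h1 : ‖xg - r‖ ≤ 4 * u * X := norm_xg_sub_le H hY z
  have h2 : ‖co S r‖ ^ 2 ≤ e * (3 / 2 * X) ^ 2 := by
    refine (norm_sq_co_rhF_le H hY hS).trans ?_
    gcongr
    exact norm_rhF_le H z Y
  have h3 : ‖co S r‖ ≤ √e * (3 / 2 * X) := by
    refine abs_le_of_sq_le_sq' ?_ (by positivity) |>.2
    rw [mul_pow, Real.sq_sqrt heS]; exact h2
  have h4 : ‖co S xg‖ ≤ √e * (3 / 2 * X) + 4 * u * X := by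
    calc ‖co S xg‖ = ‖co S r + co S (xg - r)‖ := by rw [← map_add]; congr 2; abel
      _ ≤ ‖co S r‖ + ‖co S (xg - r)‖ := norm_add_le _ _
      _ ≤ _ := add_le_add h3 ((norm_co_le S _).trans h1)
  have hs : √e * √e = e := Real.mul_self_sqrt heS
  have hs0 : 0 ≤ √e := Real.sqrt_nonneg _
  calc _ ≤ ‖co S r‖ * ‖co S xg‖ := abs_real_inner_le_norm _ _
    _ ≤ (√e * (3 / 2 * X)) * (√e * (3 / 2 * X) + 4 * u * X) := by gcongr
    _ = X ^ 2 * (9 / 4 * (√e * √e) + 6 * (√e * u)) := by ring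
    _ ≤ X ^ 2 * (6 * (e + u ^ 2)) := by
        have h5 : 2 * (√e * u) ≤ e + u ^ 2 := by nlinarith [sq_nonneg (√e - u)]
        rw [hs]
        have h6 : 9 / 4 * e + 6 * (√e * u) ≤ 6 * (e + u ^ 2) := by nlinarith
        gcongr
    _ = _ := by ring

/-- (P2) in the form consumed by ODEW -/
theorem pw_ze (hY : ‖co T Y‖ < h₁) {G : Set E} (hG : IsOpen G)
    (hmin : MinimalOver T w G) (hYG : T.starProjection Y ∈ G)
    (hS : Module.finrank ℝ S = Module.finrank ℝ T) (hr : κ * ‖ft T w z Y‖ ≤ 1 / 8) :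
    |tr (((fderiv ℝ (zeF T w (beF T w z)) Y).comp (Jm T w h₁ Y)).comp S.starProjection)
        - (divg w Y (beF T w z Y) (fderiv ℝ (beF T w z) Y) - FM.eS T w Y S.starProjection)|
      ≤ (40 + 3 * Module.finrank ℝ E) *
        (κ * (‖ft T w z Y‖ + ‖co T Y‖) * FM.eS T w Y S.starProjection
          + κ * ‖co T Y‖ * √(FM.eS T w Y S.starProjection) + (κ * ‖co T Y‖) ^ 2) ∧
    |divg w Y (beF T w z Y) (fderiv ℝ (beF T w z) Y) - Module.finrank ℝ T|
      ≤ (2 * Module.finrank ℝ T + 6) * (κ * ‖ft T w z Y‖) ^ 2 := by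
  have hk := H.ref.knn
  obtain ⟨b, hb, -, hbd, hbz⟩ := bulk_be H hY hG hmin hYG hS hr
  rw [hb.fderiv]
  refine ⟨hbz.trans ?_, hbd⟩
  have heS : 0 ≤ FM.eS T w Y S.starProjection := tilt_nonneg S (planeOf T w Y)
  set e := FM.eS T w Y S.starProjection with hed
  set u := κ * ‖co T Y‖ with hu
  set x := κ * ‖ft T w z Y‖ with hx
  have hu0 : 0 ≤ u := by positivity
  have hx0 : 0 ≤ x := by positivity
  have hs0 : 0 ≤ √e := Real.sqrt_nonneg _
  have hn : (0:ℝ) ≤ Module.finrank ℝ E := Nat.cast_nonneg _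
  have hn2 : √(Module.finrank ℝ E : ℝ) ≤ Module.finrank ℝ E := by
    rcases Nat.eq_zero_or_pos (Module.finrank ℝ E) with h0 | h0
    · rw [h0]; simp
    · have h1 : (1:ℝ) ≤ Module.finrank ℝ E := by exact_mod_cast h0
      exact Real.sqrt_le_iff.2 ⟨hn, by nlinarith⟩
  have e1 : κ * (‖ft T w z Y‖ + ‖co T Y‖) = x + u := by rw [hx, hu]; ring
  rw [e1]
  have t1 : 3 * √(Module.finrank ℝ E : ℝ) * u * √e ≤ 3 * Module.finrank ℝ E * u * √e := by
    gcongr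
  have t2 : 3 * (Module.finrank ℝ E : ℝ) * u ^ 2 * x ≤ 3 * Module.finrank ℝ E * u ^ 2 := by
    have : 0 ≤ 3 * (Module.finrank ℝ E : ℝ) * u ^ 2 := by positivity
    nlinarith
  have t3 : 0 ≤ (Module.finrank ℝ E : ℝ) * ((x + u) * e) := by positivity
  have t4 : 0 ≤ u * √e := by positivity
  have t5 : 0 ≤ u ^ 2 := by positivity
  nlinarith

/-- (P3) in the form consumed by ODEW -/
theorem pw_xg (hY : ‖co T Y‖ < h₁) {G : Set E} (hG : IsOpen G)
    (hmin : MinimalOver T w G) (hYG : T.starProjection Y ∈ G)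
    (hS : Module.finrank ℝ S = Module.finrank ℝ T) (hr : κ * ‖ft T w z Y‖ ≤ 1 / 8) :
    |tr (((fderiv ℝ (zeF T w (gmF T w z)) Y).comp (Jm T w h₁ Y)).comp S.starProjection)
        - (Module.finrank ℝ T - FM.eS T w Y S.starProjection)|
      ≤ (40 + 3 * Module.finrank ℝ E) *
        (κ * (‖ft T w z Y‖ + ‖co T Y‖) * FM.eS T w Y S.starProjection
          + κ * ‖co T Y‖ * √(FM.eS T w Y S.starProjection) + (κ * ‖co T Y‖) ^ 2) := by
  have hk := H.ref.knn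
  have hbx := norm_bx_le_ft H z Y
  have hkb : κ * ‖T.starProjection (Y - z)‖ ≤ κ * ‖ft T w z Y‖ := by gcongr
  have hbz := bulk_xg H z hY hG hmin hYG hS (hkb.trans (hr.trans (by norm_num)))
  refine hbz.trans ?_
  have heS : 0 ≤ FM.eS T w Y S.starProjection := tilt_nonneg S (planeOf T w Y)
  set e := FM.eS T w Y S.starProjection with hed
  set u := κ * ‖co T Y‖ with hu
  set x := κ * ‖ft T w z Y‖ with hx
  set y := κ * ‖T.starProjection (Y - z)‖ with hy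
  have hy0 : 0 ≤ y := by positivity
  have hu0 : 0 ≤ u := by positivity
  have hx0 : 0 ≤ x := by positivity
  have hs0 : 0 ≤ √e := Real.sqrt_nonneg _
  have hn : (0:ℝ) ≤ Module.finrank ℝ E := Nat.cast_nonneg _
  have hn2 : √(Module.finrank ℝ E : ℝ) ≤ Module.finrank ℝ E := by
    rcases Nat.eq_zero_or_pos (Module.finrank ℝ E) with h0 | h0
    · rw [h0]; simp
    · have h1 : (1:ℝ) ≤ Module.finrank ℝ E := by exact_mod_cast h0
      exact Real.sqrt_le_iff.2 ⟨hn, by nlinarith⟩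
  have e1 : κ * (‖ft T w z Y‖ + ‖co T Y‖) = x + u := by rw [hx, hu]; ring
  rw [e1]
  have t0 : 16 * (u + y) * e ≤ 16 * (u + x) * e := by gcongr
  have t1 : √(Module.finrank ℝ E : ℝ) * (u * (1 + 9 * y)) * √e
      ≤ Module.finrank ℝ E * (u * (1 + 9 * (1 / 8))) * √e := by
    gcongr
    exact hkb.trans hr
  have t2 : 3 * (Module.finrank ℝ E : ℝ) * u ^ 2 * y ≤ 3 * Module.finrank ℝ E * u ^ 2 * 1 := by
    gcongr
    linarith
  have t3 : 0 ≤ (Module.finrank ℝ E : ℝ) * ((x + u) * e) := by positivity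
  have t4 : 0 ≤ u * √e := by positivity
  have t6 : 0 ≤ (Module.finrank ℝ E : ℝ) * (u * √e) := by positivity
  have t5 : 0 ≤ u ^ 2 := by positivity
  have t7 : 0 ≤ (x + u) * e := by positivity
  have f1 : 16 * (u + y) * e + √(Module.finrank ℝ E : ℝ) * (u * (1 + 9 * y)) * √e
      + 3 * (Module.finrank ℝ E : ℝ) * u ^ 2 * y
      ≤ 16 * ((x + u) * e) + 3 * ((Module.finrank ℝ E : ℝ) * (u * √e))
        + 3 * Module.finrank ℝ E * u ^ 2 := by
    have : Module.finrank ℝ E * (u * (1 + 9 * (1 / 8))) * √e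
        = (17 / 8) * ((Module.finrank ℝ E : ℝ) * (u * √e)) := by ring
    rw [this] at t1
    linarith
  refine f1.trans ?_
  have f2 : (40 + 3 * (Module.finrank ℝ E : ℝ)) * ((x + u) * e + u * √e + u ^ 2)
      = 40 * ((x + u) * e) + 3 * ((Module.finrank ℝ E : ℝ) * ((x + u) * e)) + 40 * (u * √e)
        + 3 * ((Module.finrank ℝ E : ℝ) * (u * √e)) + 40 * u ^ 2
        + 3 * Module.finrank ℝ E * u ^ 2 := by ring
  rw [f2]
  linarith

end

end Vale.Agent.P214.ODEF
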