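import Vale.Agent.P214.ODEF.Bulk

/-!
# P214, block ODEF: bulk estimates for the Fermi fields

* `omF T w Y = u - A^* u` (`u = q Y`): the position relative to the foot point on the graph.
* `zeF T w β Y = DΨ(Y) β`: the Fermi extension of the base field `β`.
* `divg w β b Y = tr b + tr (G⁻¹ A^* D²w(β))`: the divergence of `β` on the graph (`b = Dβ`).
-/

open Set Filter Topology MeasureTheory Metric
open scoped RealInnerProductSpace ContDiff

set_option linter.all false

namespace Vale.Agent.P214.ODEF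

open FV FM

variable {E : Type*} [NormedAddCommGroup E] [InnerProductSpace ℝ E] [FiniteDimensional ℝ E]

/-- the trace as a continuous linear map -/
noncomputable def trL : (E →L[ℝ] E) →L[ℝ] ℝ :=
  LinearMap.mkContinuous
    { toFun := tr
      map_add' := tr_add
      map_smul' := fun c A => tr_smul c A } (Module.finrank ℝ E) (fun A => abs_tr_le A)

lemma trL_apply (A : E →L[ℝ] E) : trL A = trH A := rfl

variable {T : Submodule ℝ E} {w : E → E} {ε κ h₁ : ℝ}

/-- the algebraic data at a point of the Fermi chart -/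
lemma fdata (H : Adm T w ε κ h₁) {Y : E} (hY : ‖co T Y‖ < h₁) (S : Submodule ℝ E) :
    FData T.starProjection (fderiv ℝ w Y) (Hw w Y (co T Y)) (Gi (fderiv ℝ w Y))
      (Ki (fderiv ℝ w Y) (Hw w Y (co T Y))) (Jm T w h₁ Y) S.starProjection where
  pp := star_comp_self T
  ps := adj_star T
  Ap := by
    ext v
    show fderiv ℝ w Y (T.starProjection v) = fderiv ℝ w Y v
    exact H.ref.fderiv_star Y v
  pA := by
    ext v
    show T.starProjection (fderiv ℝ w Y v) = 0
    exact H.ref.star_fderiv Y v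
  Bp := by
    ext v
    show Hw w Y (co T Y) (T.starProjection v) = Hw w Y (co T Y) v
    exact H.ref.Hw_star Y _ v
  Bs := by
    ext v
    refine ext_inner_right ℝ fun z => ?_
    rw [star_def, inner_adj_left, H.ref.Hw_symm]
  GiG := Ring.inverse_mul_cancel _ (isUnit_of_coercive _ one_pos (coercive_G _))
  GGi := Ring.mul_inverse_cancel _ (isUnit_of_coercive _ one_pos (coercive_G _))
  KG := by
    refine Ring.inverse_mul_cancel _ (isUnit_of_coercive _ (by norm_num : (0:ℝ) < 1 / 2)
      (coercive_K _ _ ?_))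
    refine (H.ref.norm_Hw_le Y _).trans ?_
    have := H.ref.knn
    calc κ * ‖co T Y‖ ≤ κ * h₁ := by gcongr
      _ ≤ 1 / 2 := by linarith [H.hκ]
  GK := by
    refine Ring.mul_inverse_cancel _ (isUnit_of_coercive _ (by norm_num : (0:ℝ) < 1 / 2)
      (coercive_K _ _ ?_))
    refine (H.ref.norm_Hw_le Y _).trans ?_
    have := H.ref.knn
    calc κ * ‖co T Y‖ ≤ κ * h₁ := by gcongr
      _ ≤ 1 / 2 := by linarith [H.hκ]
  DJ := by
    have h1 := H.comp_Jm Y
    rw [H.ref.fderiv_Psi_eq hY] at h1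
    exact h1
  PP := star_comp_self S
  Ps := adj_star S

lemma norm_B_le (H : Adm T w ε κ h₁) {Y : E} (hY : ‖co T Y‖ < h₁) :
    ‖Hw w Y (co T Y)‖ ≤ 1 / 2 := by
  refine (H.ref.norm_Hw_le Y _).trans ?_
  have := H.ref.knn
  calc κ * ‖co T Y‖ ≤ κ * h₁ := by gcongr
    _ ≤ 1 / 2 := by linarith [H.hκ]

/-- the algebraic projection is the projection onto the tangent plane -/
lemma proj_eq_PS (H : Adm T w ε κ h₁) {Y : E} (hY : ‖co T Y‖ < h₁) :
    proj T.starProjection (fderiv ℝ w Y) (Gi (fderiv ℝ w Y)) = PS T w Y := by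
  have h := fdata H hY ⊤
  have h0 := fdata H (Y := T.starProjection Y)
    (by rw [co_star, norm_zero]; exact H.hpos) ⊤
  set A := fderiv ℝ w Y with hA
  have hAA : fderiv ℝ w (T.starProjection Y) = A := H.ref.fderiv_base Y
  have hB0 : Hw w (T.starProjection Y) (co T (T.starProjection Y)) = 0 := by
    rw [co_star]; ext v; simp [Hw_apply]
  rw [hAA, hB0] at h0
  -- `D₀ = 1 + A - A*` is right invertible
  have e1 : proj T.starProjection A (Gi A) * (1 + A - star A)
      = (1 + A - star A) * T.starProjection := by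
    have a1 := h0.pD
    rw [sub_zero, sub_zero] at a1
    unfold proj
    calc (T.starProjection + A) * Gi A * (T.starProjection + star A) * (1 + A - star A)
        = (T.starProjection + A) * (Gi A * ((T.starProjection + star A) * (1 + A - star A))) := by
          simp only [mul_assoc]
      _ = (T.starProjection + A) * (Gi A * ((1 + star A * A) * T.starProjection)) := by rw [a1]
      _ = (T.starProjection + A) * ((Gi A * (1 + star A * A)) * T.starProjection) := by
          simp only [mul_assoc]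
      _ = T.starProjection * T.starProjection + A * T.starProjection := by
          rw [h0.GiG, one_mul, add_mul]
      _ = T.starProjection + A := by rw [h0.pp, h0.Ap]
      _ = _ := by
          have : (1 + A - star A) * T.starProjection
              = T.starProjection + A * T.starProjection - star A * T.starProjection := by
            noncomm_ring
          rw [this, h0.Ap, h0.sAp, sub_zero]
  have e2 : (1 + A - star A) * Jm T w h₁ (T.starProjection Y) = 1 := by
    have := h0.DJ
    rwa [sub_zero] at this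
  have e3 : PS T w Y * (1 + A - star A) = (1 + A - star A) * T.starProjection := by
    ext v
    exact H.ref.PS_D0 Y v
  calc proj T.starProjection A (Gi A)
      = proj T.starProjection A (Gi A) *
          ((1 + A - star A) * Jm T w h₁ (T.starProjection Y)) := by rw [e2, mul_one]
    _ = (PS T w Y * (1 + A - star A)) * Jm T w h₁ (T.starProjection Y) := by
        rw [← mul_assoc, e1, e3]
    _ = PS T w Y := by rw [mul_assoc, e2, mul_one]

lemma eS_eq_eS (H : Adm T w ε κ h₁) {Y : E} (hY : ‖co T Y‖ < h₁) (B : E →L[ℝ] E) :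
    eS trH T.starProjection (fderiv ℝ w Y) (Gi (fderiv ℝ w Y)) B = FM.eS T w Y B := by
  unfold eS
  rw [proj_eq_PS H hY]
  rfl

lemma trH_starProjection (S : Submodule ℝ E) : trH S.starProjection = Module.finrank ℝ S :=
  tr_starProjection S

/-- minimality in algebraic form: `tr (G⁻¹ Hw u) = ⟨u, lap w⟩` -/
lemma tr_Gi_Hw (H : Adm T w ε κ h₁) (Y u : E) :
    trH (Gi (fderiv ℝ w Y) * Hw w Y u) = ⟪u, lap w (PS T w Y) Y⟫ := by
  have h0 := fdata H (Y := T.starProjection Y)
    (by rw [co_star, norm_zero]; exact H.hpos) ⊤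
  have hPS := proj_eq_PS H (Y := T.starProjection Y)
    (by rw [co_star, norm_zero]; exact H.hpos)
  rw [H.ref.PS_base] at hPS
  have hAA : fderiv ℝ w (T.starProjection Y) = fderiv ℝ w Y := H.ref.fderiv_base Y
  rw [hAA] at h0 hPS
  set A := fderiv ℝ w Y with hA
  set B := Hw w Y u with hB
  have hBp : B * T.starProjection = B := by
    ext v
    show Hw w Y u (T.starProjection v) = Hw w Y u v
    exact H.ref.Hw_star Y u v
  have hpB : T.starProjection * B = B := by
    ext v
    show T.starProjection (Hw w Y u v) = Hw w Y u v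
    exact H.ref.star_Hw Y u v
  -- tr (Gi B) = tr (PS B)
  have e1 : trH (Gi A * B) = trH (B * PS T w Y) := by
    have e2 : T.starProjection * PS T w Y * T.starProjection = Gi A * T.starProjection := by
      rw [← hPS, h0.p_proj]
      have : Gi A * (T.starProjection + star A) * T.starProjection
          = Gi A * (T.starProjection * T.starProjection) + Gi A * (star A * T.starProjection) := by
        noncomm_ring
      rw [this, h0.pp, h0.sAp, mul_zero, add_zero]
    calc trH (Gi A * B) = trH (Gi A * (T.starProjection * B)) := by rw [hpB]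
      _ = trH ((Gi A * T.starProjection) * B) := by rw [mul_assoc]
      _ = trH ((T.starProjection * PS T w Y * T.starProjection) * B) := by rw [e2]
      _ = trH (T.starProjection * PS T w Y * (T.starProjection * B)) := by rw [mul_assoc]
      _ = trH (T.starProjection * (PS T w Y * B)) := by rw [hpB, mul_assoc]
      _ = trH (PS T w Y * B * T.starProjection) := by rw [trH_comm]
      _ = trH (PS T w Y * (B * T.starProjection)) := by rw [mul_assoc]
      _ = trH (B * PS T w Y) := by rw [hBp, trH_comm]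
  rw [e1, trH_apply, tr_eq_sum (stdOrthonormalBasis ℝ E)]
  unfold lap
  rw [inner_sum]
  refine Finset.sum_congr rfl fun k _ => ?_
  have e3 : (B * PS T w Y) (stdOrthonormalBasis ℝ E k)
      = Hw w Y u (PS T w Y (stdOrthonormalBasis ℝ E k)) := rfl
  rw [e3, real_inner_comm, inner_Hw]
  rfl

/-! ### the vertical field -/

/-- the position relative to the foot point -/
noncomputable def omF (T : Submodule ℝ E) (w : E → E) (Y : E) : E :=
  co T Y - adj (fderiv ℝ w Y) (co T Y)

lemma hasFDerivAt_omF (hw : Ref T w ε κ) (Y : E) :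
    HasFDerivAt (omF T w) (Dm w Y (co T Y) - (T.starProjection + fderiv ℝ w Y)) Y := by
  have h1 : HasFDerivAt (fun Y => adj (fderiv ℝ w Y)) (adj.comp (D2 w Y)) Y :=
    ((adj (E := E)).hasFDerivAt (x := fderiv ℝ w Y)).comp Y (hw.diff1 Y).hasFDerivAt
  have h3 := ((co T).hasFDerivAt (x := Y)).sub (h1.clm_apply ((co T).hasFDerivAt (x := Y)))
  refine h3.congr_fderiv ?_
  ext v
  simp only [ContinuousLinearMap.sub_apply, ContinuousLinearMap.add_apply,
    ContinuousLinearMap.comp_apply, ContinuousLinearMap.flip_apply, Dm_apply, D0_apply, Hw_apply]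
  rw [hw.adj_fderiv_co, co_apply]
  abel

/-- **Bulk 1 in Fermi coordinates.** -/
theorem bulk_om (H : Adm T w ε κ h₁) {Y : E} (hY : ‖co T Y‖ < h₁)
    (hmin : lap w (PS T w Y) Y = 0) {S : Submodule ℝ E}
    (hS : Module.finrank ℝ S = Module.finrank ℝ T) :
    |tr (((fderiv ℝ (omF T w) Y).comp (Jm T w h₁ Y)).comp S.starProjection)
        - FM.eS T w Y S.starProjection|
      ≤ 8 * (κ * ‖co T Y‖) * FM.eS T w Y S.starProjection
        + 2 * Module.finrank ℝ E * (κ * ‖co T Y‖) ^ 2 := by
  have h := fdata H hY S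
  have hm : trH S.starProjection = trH T.starProjection := by
    rw [trH_starProjection, trH_starProjection, hS]
  have hA : ‖fderiv ℝ w Y‖ ≤ 1 :=
    (H.ref.slope Y).trans ((H.hε.trans eps0_le).trans (by norm_num))
  have h0 : trH (Gi (fderiv ℝ w Y) * Hw w Y (co T Y)) = 0 := by
    rw [tr_Gi_Hw H, hmin, inner_zero_right]
  have := bulk_one_le h hm hA (norm_Gi_le _) (norm_Ki_le _ _ (norm_B_le H hY))
    (H.ref.norm_Hw_le Y _) h0
  rw [eS_eq_eS H hY] at this
  rw [(hasFDerivAt_omF H.ref Y).fderiv]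
  exact this

/-! ### the radial field -/

/-- the Fermi extension of a base field -/
noncomputable def zeF (T : Submodule ℝ E) (w : E → E) (β : E → E) (Y : E) : E :=
  Dm w Y (co T Y) (β Y)

/-- the derivative of `Hw` in the direction `v` -/
noncomputable def D3w (w : E → E) (Y u v : E) : E →L[ℝ] E :=
  (adj.comp (fderiv ℝ (D2 w) Y v)).flip u

lemma D3w_apply (w : E → E) (Y u v z : E) : D3w w Y u v z = adj (fderiv ℝ (D2 w) Y v z) u := rfl

lemma D3_symm (hw : Ref T w ε κ) (Y v z : E) :
    fderiv ℝ (D2 w) Y v z = fderiv ℝ (D2 w) Y z v := by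
  have h1 : IsSymmSndFDerivAt ℝ (fderiv ℝ w) Y := by
    refine (hw.smooth1.of_le (m := 2)
      (WithTop.coe_le_coe.2 le_top)).contDiffAt.isSymmSndFDerivAt ?_
    simp
  exact h1 v z

/-- derivative of the values of the second derivative -/
lemma hasFDerivAt_D2_apply (hw : Ref T w ε κ) (Y a b : E) :
    HasFDerivAt (fun y => D2 w y a b)
      ((ContinuousLinearMap.apply ℝ E b).comp ((ContinuousLinearMap.apply ℝ (E →L[ℝ] E) a).comp
        (fderiv ℝ (D2 w) Y))) Y := by
  have h1 := ((hw.diff2 Y).hasFDerivAt.clm_apply (hasFDerivAt_const a Y)).clm_apply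
    (hasFDerivAt_const b Y)
  refine h1.congr_fderiv ?_
  ext v
  simp

lemma star_D3 (hw : Ref T w ε κ) (Y v a b : E) :
    T.starProjection (fderiv ℝ (D2 w) Y v a b) = 0 := by
  have h2 : HasFDerivAt (fun y => T.starProjection (D2 w y a b))
      (T.starProjection.comp ((ContinuousLinearMap.apply ℝ E b).comp
        ((ContinuousLinearMap.apply ℝ (E →L[ℝ] E) a).comp (fderiv ℝ (D2 w) Y)))) Y :=
    T.starProjection.hasFDerivAt.comp Y (hasFDerivAt_D2_apply hw Y a b)
  have h3 : (fun y => T.starProjection (D2 w y a b)) = fun _ => 0 := by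
    funext y; rw [hw.star_D2]
  rw [h3] at h2
  have h4 := h2.fderiv
  rw [fderiv_fun_const] at h4
  have := congrArg (fun L : E →L[ℝ] E => L v) h4
  simpa using this.symm

lemma D3_star_right (hw : Ref T w ε κ) (Y v a b : E) :
    fderiv ℝ (D2 w) Y v a (T.starProjection b) = fderiv ℝ (D2 w) Y v a b := by
  have h2 := hasFDerivAt_D2_apply hw Y a (T.starProjection b)
  have h2' := hasFDerivAt_D2_apply hw Y a b
  have h3 : (fun y => D2 w y a (T.starProjection b)) = fun y => D2 w y a b := by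
    funext y; rw [hw.D2_star_right]
  rw [h3] at h2
  have h4 := h2.unique h2'
  exact congrArg (fun L : E →L[ℝ] E => L v) h4

lemma D3_star_mid (hw : Ref T w ε κ) (Y v a b : E) :
    fderiv ℝ (D2 w) Y v (T.starProjection a) b = fderiv ℝ (D2 w) Y v a b := by
  have h2 := hasFDerivAt_D2_apply hw Y (T.starProjection a) b
  have h2' := hasFDerivAt_D2_apply hw Y a b
  have h3 : (fun y => D2 w y (T.starProjection a) b) = fun y => D2 w y a b := by
    funext y; rw [hw.D2_star_left]
  rw [h3] at h2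
  have h4 := h2.unique h2'
  exact congrArg (fun L : E →L[ℝ] E => L v) h4

/-- `F p = F` -/
lemma D3w_star (hw : Ref T w ε κ) (Y u v : E) : D3w w Y u v * T.starProjection = D3w w Y u v := by
  ext z
  show adj (fderiv ℝ (D2 w) Y v (T.starProjection z)) u = adj (fderiv ℝ (D2 w) Y v z) u
  congr 2
  ext b
  rw [D3_star_mid hw]

/-- `p F = F` -/
lemma star_D3w (hw : Ref T w ε κ) (Y u v : E) : T.starProjection * D3w w Y u v = D3w w Y u v := by
  ext z
  show T.starProjection (adj (fderiv ℝ (D2 w) Y v z) u) = adj (fderiv ℝ (D2 w) Y v z) u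
  refine ext_inner_right ℝ fun b => ?_
  rw [inner_star, inner_adj_left, inner_adj_left, D3_star_right hw]

lemma norm_D3w_le (hw : Ref T w ε κ) (Y u v : E) : ‖D3w w Y u v‖ ≤ κ ^ 2 * ‖u‖ * ‖v‖ := by
  refine ContinuousLinearMap.opNorm_le_bound _ (by have := hw.knn; positivity) fun z => ?_
  rw [D3w_apply]
  calc ‖adj (fderiv ℝ (D2 w) Y v z) u‖ ≤ ‖fderiv ℝ (D2 w) Y v z‖ * ‖u‖ := norm_adj_apply_le _ _
    _ ≤ (‖fderiv ℝ (D2 w) Y v‖ * ‖z‖) * ‖u‖ := by
        gcongr; exact (fderiv ℝ (D2 w) Y v).le_opNorm z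
    _ ≤ ((κ ^ 2 * ‖v‖) * ‖z‖) * ‖u‖ := by gcongr; exact hw.norm_D3_le Y v
    _ = _ := by ring

/-- the divergence on the graph of the base field with value `β` and differential `b` -/
noncomputable def divg (w : E → E) (Y β : E) (b : E →L[ℝ] E) : ℝ :=
  tr b + tr (Gi (fderiv ℝ w Y) * adj (fderiv ℝ w Y) * D2 w Y β)

section radial

variable {β : E → E} {b : E →L[ℝ] E} {Y : E}

lemma base_deriv_star (hβ : HasFDerivAt β b Y) (hbase : ∀ y, β (T.starProjection y) = β y) :
    b * T.starProjection = b := by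
  ext v
  show b (T.starProjection v) = b v
  have h1 : b (co T v) = 0 := by
    have h2 : HasDerivAt (fun s : ℝ => Y + s • co T v) (co T v) 0 := by
      simpa using ((hasDerivAt_id (0:ℝ)).smul_const (co T v)).const_add Y
    have h3 : HasFDerivAt β b (Y + (0:ℝ) • co T v) := by simpa using hβ
    have h4 := h3.comp_hasDerivAt (0:ℝ) h2
    have h5 : (β ∘ fun s : ℝ => Y + s • co T v) = fun _ => β Y := by
      funext s
      show β (Y + s • co T v) = β Y
      rw [← hbase (Y + s • co T v), map_add, map_smul, star_co, smul_zero, add_zero, hbase]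
    rw [h5] at h4
    exact h4.unique (hasDerivAt_const _ _)
  rw [co_apply, map_sub, sub_eq_zero] at h1
  exact h1.symm

lemma star_base_deriv (hβ : HasFDerivAt β b Y) (hT : ∀ y, T.starProjection (β y) = β y) :
    T.starProjection * b = b := by
  have h1 : HasFDerivAt (fun y => T.starProjection (β y)) (T.starProjection.comp b) Y :=
    T.starProjection.hasFDerivAt.comp Y hβ
  have h2 : (fun y => T.starProjection (β y)) = β := funext hT
  rw [h2] at h1
  exact h1.unique hβ

/-- differential of the Fermi extension of a base field -/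
lemma hasFDerivAt_zeF (hw : Ref T w ε κ) (hβ : HasFDerivAt β b Y)
    (hT : ∀ y, T.starProjection (β y) = β y) :
    HasFDerivAt (zeF T w β)
      (Dm w Y (co T Y) * b + D2 w Y (β Y) - adj (D2 w Y (β Y)) - D3w w Y (co T Y) (β Y)) Y := by
  have h0 : zeF T w β = fun Y => β Y + fderiv ℝ w Y (β Y) - adj (D2 w Y (β Y)) (co T Y) := by
    funext Y
    unfold zeF
    rw [Dm_apply, D0_apply, Hw_apply]
    have : adj (fderiv ℝ w Y) (β Y) = 0 := by rw [← hT, hw.adj_fderiv_star]
    rw [this, sub_zero]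
  have h1 : HasFDerivAt (fun y => D2 w y (β y))
      ((D2 w Y).comp b + (fderiv ℝ (D2 w) Y).flip (β Y)) Y :=
    (hw.diff2 Y).hasFDerivAt.clm_apply hβ
  have h2 : HasFDerivAt (fun y => adj (D2 w y (β y)))
      (adj.comp ((D2 w Y).comp b + (fderiv ℝ (D2 w) Y).flip (β Y))) Y :=
    (adj (E := E)).hasFDerivAt.comp Y h1
  have h3 := h2.clm_apply ((co T).hasFDerivAt (x := Y))
  have h4 : HasFDerivAt (fun y => fderiv ℝ w y (β y))
      ((fderiv ℝ w Y).comp b + (D2 w Y).flip (β Y)) Y :=
    (hw.diff1 Y).hasFDerivAt.clm_apply hβ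
  have h5 := (hβ.add h4).sub h3
  rw [h0]
  refine h5.congr_fderiv ?_
  ext v
  have hb : adj (fderiv ℝ w Y) (b v) = 0 := by
    have := star_base_deriv hβ hT
    have h6 : T.starProjection (b v) = b v := congrArg (fun L : E →L[ℝ] E => L v) this
    rw [← h6, hw.adj_fderiv_star]
  have hc : adj (D2 w Y (β Y)) (co T v) = adj (D2 w Y (β Y)) v := by
    refine ext_inner_right ℝ fun z => ?_
    rw [inner_adj_left, inner_adj_left, inner_co, hw.co_D2]
  have hs : D2 w Y v (β Y) = D2 w Y (β Y) v := hw.D2_symm Y v (β Y)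
  have hd : fderiv ℝ (D2 w) Y v (β Y) = fderiv ℝ (D2 w) Y (β Y) v := D3_symm hw Y v (β Y)
  have hmul : (Dm w Y (co T Y) * b) v = Dm w Y (co T Y) (b v) := rfl
  simp only [ContinuousLinearMap.sub_apply, ContinuousLinearMap.add_apply,
    ContinuousLinearMap.comp_apply, ContinuousLinearMap.flip_apply, hmul, Dm_apply, D0_apply,
    Hw_apply, D3w_apply, hb, hc, hs, hd, map_add]
  abel

/-- differentiated minimality -/
lemma diff_min (H : Adm T w ε κ h₁) {G : Set E} (hG : IsOpen G) (hmin : MinimalOver T w G)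
    (hY : T.starProjection Y ∈ G) (u v : E) :
    trH (Gi (fderiv ℝ w Y) * D3w w Y u v)
      = trH (Gi (fderiv ℝ w Y) * (star (D2 w Y v) * fderiv ℝ w Y
          + star (fderiv ℝ w Y) * D2 w Y v) * Gi (fderiv ℝ w Y) * Hw w Y u) := by
  have hw := H.ref
  -- derivative of `G`
  have h1 : HasFDerivAt (fun y => adj (fderiv ℝ w y)) (adj.comp (D2 w Y)) Y :=
    ((adj (E := E)).hasFDerivAt (x := fderiv ℝ w Y)).comp Y (hw.diff1 Y).hasFDerivAt
  have h2 : HasFDerivAt (fun y => (adj (fderiv ℝ w y)).comp (fderiv ℝ w y)) _ Y :=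
    h1.clm_comp (hw.diff1 Y).hasFDerivAt
  have h3 : HasFDerivAt (fun y => 1 + star (fderiv ℝ w y) * fderiv ℝ w y) _ Y := h2.const_add 1
  have hu : IsUnit (1 + star (fderiv ℝ w Y) * fderiv ℝ w Y) :=
    isUnit_of_coercive _ one_pos (coercive_G _)
  have h4 := hasFDerivAt_ringInverse (𝕜 := ℝ) hu.unit
  have hval : (hu.unit : E →L[ℝ] E) = 1 + star (fderiv ℝ w Y) * fderiv ℝ w Y := rfl
  rw [hval] at h4
  have hinv : ((hu.unit⁻¹ : (E →L[ℝ] E)ˣ) : E →L[ℝ] E) = Gi (fderiv ℝ w Y) := by
    unfold Gi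
    exact (Ring.inverse_unit hu.unit).symm
  rw [hinv] at h4
  have h5 := h4.comp Y h3
  -- derivative of `Hw`
  let Φ : (E →L[ℝ] E →L[ℝ] E) →L[ℝ] (E →L[ℝ] E) :=
    (ContinuousLinearMap.apply ℝ (E →L[ℝ] E) u).comp
      ((ContinuousLinearMap.flipₗᵢ ℝ E E E : _ ≃ₗᵢ[ℝ] _).toContinuousLinearEquiv.toContinuousLinearMap.comp
        (ContinuousLinearMap.compL ℝ E (E →L[ℝ] E) (E →L[ℝ] E) adj))
  have hΦ : ∀ L, Φ L = (adj.comp L).flip u := fun L => rfl
  have h6' : HasFDerivAt (fun y => Φ (D2 w y)) (Φ.comp (fderiv ℝ (D2 w) Y)) Y :=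
    HasFDerivAt.comp (𝕜 := ℝ) (g := Φ) (f := D2 w) Y Φ.hasFDerivAt (hw.diff2 Y).hasFDerivAt
  have h6 : HasFDerivAt (fun y => Hw w y u) (Φ.comp (fderiv ℝ (D2 w) Y)) Y := h6'
  have h7 := trL.hasFDerivAt.comp Y (h5.clm_comp h6)
  -- the function vanishes near `Y`
  have h8 : (fun y => trL ((Ring.inverse (1 + star (fderiv ℝ w y) * fderiv ℝ w y)).comp
      (Hw w y u))) =ᶠ[𝓝 Y] fun _ => 0 := by
    have : {y : E | T.starProjection y ∈ G} ∈ 𝓝 Y :=
      (hG.preimage T.starProjection.continuous).mem_nhds hY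
    filter_upwards [this] with y hy
    have e1 := tr_Gi_Hw H y u
    rw [hmin y hy, inner_zero_right] at e1
    exact e1
  have h9 := h7.congr_of_eventuallyEq h8.symm
  have h10 := h9.unique (hasFDerivAt_const (0:ℝ) Y)
  have h11 := congrArg (fun L : E →L[ℝ] ℝ => L v) h10
  have h12 : trH (Gi (fderiv ℝ w Y) * D3w w Y u v)
      + trH ((-(Gi (fderiv ℝ w Y) * (star (fderiv ℝ w Y) * D2 w Y v
          + star (D2 w Y v) * fderiv ℝ w Y) * Gi (fderiv ℝ w Y))) * Hw w Y u) = 0 := by
    rw [← map_add]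
    exact h11
  have h13 : (-(Gi (fderiv ℝ w Y) * (star (fderiv ℝ w Y) * D2 w Y v
          + star (D2 w Y v) * fderiv ℝ w Y) * Gi (fderiv ℝ w Y))) * Hw w Y u
      = -(Gi (fderiv ℝ w Y) * (star (D2 w Y v) * fderiv ℝ w Y
          + star (fderiv ℝ w Y) * D2 w Y v) * Gi (fderiv ℝ w Y) * Hw w Y u) := by
    noncomm_ring
  rw [h13, map_neg] at h12
  linarith

/-- **Bulk 2 in Fermi coordinates.** -/
theorem bulk_ze (H : Adm T w ε κ h₁) (hY : ‖co T Y‖ < h₁) {G : Set E} (hG : IsOpen G)
    (hmin : MinimalOver T w G) (hYG : T.starProjection Y ∈ G) {S : Submodule ℝ E}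
    (hS : Module.finrank ℝ S = Module.finrank ℝ T)
    (hβ : HasFDerivAt β b Y) (hbase : ∀ y, β (T.starProjection y) = β y)
    (hT : ∀ y, T.starProjection (β y) = β y) {d : ℝ} (hd : ‖b - T.starProjection‖ ≤ d)
    (hd1 : d ≤ 1) :
    |tr (((fderiv ℝ (zeF T w β) Y).comp (Jm T w h₁ Y)).comp S.starProjection)
        - (divg w Y (β Y) b - FM.eS T w Y S.starProjection)|
      ≤ (16 * (κ * ‖co T Y‖) + 12 * d + 2 * (κ * ‖β Y‖)
            + 8 * (κ ^ 2 * ‖co T Y‖ * ‖β Y‖)) * FM.eS T w Y S.starProjection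
        + √(Module.finrank ℝ E) * (8 * ε * (κ * ‖co T Y‖) + 8 * (κ * ‖β Y‖) * (κ * ‖co T Y‖)
            + 4 * ε * (κ ^ 2 * ‖co T Y‖ * ‖β Y‖)) * √(FM.eS T w Y S.starProjection)
        + Module.finrank ℝ E * (4 * (κ * ‖co T Y‖) ^ 2 * ε * (κ * ‖β Y‖)
            + 2 * (κ ^ 2 * ‖co T Y‖ * ‖β Y‖) * (κ * ‖co T Y‖)) := by
  have h := fdata H hY S
  have hw := H.ref
  have hm : trH S.starProjection = trH T.starProjection := by
    rw [trH_starProjection, trH_starProjection, hS]
  have ha1 : ε ≤ 1 := (H.hε.trans eps0_le).trans (by norm_num)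
  have hb1 : κ * ‖co T Y‖ ≤ 1 / 2 := by
    have := H.ref.knn
    calc κ * ‖co T Y‖ ≤ κ * h₁ := by gcongr
      _ ≤ 1 / 2 := by linarith [H.hκ]
  have hCp : D2 w Y (β Y) * T.starProjection = D2 w Y (β Y) := by
    ext v
    show D2 w Y (β Y) (T.starProjection v) = D2 w Y (β Y) v
    exact hw.D2_star_right Y (β Y) v
  have hpC : T.starProjection * D2 w Y (β Y) = 0 := by
    ext v
    show T.starProjection (D2 w Y (β Y) v) = 0
    exact hw.star_D2 Y (β Y) v
  have hCn : ‖D2 w Y (β Y)‖ ≤ κ * ‖β Y‖ :=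
    ((D2 w Y).le_opNorm _).trans (by gcongr; exact hw.norm_D2_le Y)
  have key := bulk_two_le h hm (hw.slope Y) ha1 (norm_Gi_le _) (norm_Ki_le _ _ (norm_B_le H hY))
    (hw.norm_Hw_le Y _) hb1 (base_deriv_star hβ hbase) (star_base_deriv hβ hT) hCp hpC
    (D3w_star hw Y (co T Y) (β Y)) (star_D3w hw Y (co T Y) (β Y)) hd hd1 hCn
    (norm_D3w_le hw Y (co T Y) (β Y)) (diff_min H hG hmin hYG (co T Y) (β Y))
  rw [eS_eq_eS H hY] at key
  rw [(hasFDerivAt_zeF hw hβ hT).fderiv]
  exact key

end radial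

end Vale.Agent.P214.ODEF
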