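import Mathlib.Algebra.Star.Basic
import Mathlib.Tactic

/-!
# P214, block ODEF: the pointwise algebra of the Fermi chart

Everything happens in a star ring `R` with a trace `τ`.  `p` is the projection on the base plane,
`A = q A p` the differential of the graph function, `B = p B p` the Hessian of `⟨u, w⟩`,
`D = 1 + A - A* - B` the differential of the Fermi chart, `J` its inverse, `P` an orthogonal
projection.
-/

set_option linter.all false

namespace Vale.Agent.P214.ODEF

variable {R : Type*} [Ring R] [StarRing R]

/-- the algebraic data at one point -/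
structure FData (p A B Gi K J P : R) : Prop where
  pp : p * p = p
  ps : star p = p
  Ap : A * p = A
  pA : p * A = 0
  Bp : B * p = B
  Bs : star B = B
  GiG : Gi * (1 + star A * A) = 1
  GGi : (1 + star A * A) * Gi = 1
  KG : K * (1 + star A * A - B) = 1
  GK : (1 + star A * A - B) * K = 1
  DJ : (1 + A - star A - B) * J = 1
  PP : P * P = P
  Ps : star P = P

namespace FData

variable {p A B Gi K J P : R}

lemma pB (h : FData p A B Gi K J P) : p * B = B := by
  have := congrArg star h.Bp
  rwa [star_mul, h.ps, h.Bs] at this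

lemma sAp (h : FData p A B Gi K J P) : star A * p = 0 := by
  have := congrArg star h.pA
  rwa [star_mul, h.ps, star_zero] at this

lemma psA (h : FData p A B Gi K J P) : p * star A = star A := by
  have := congrArg star h.Ap
  rwa [star_mul, h.ps] at this

lemma AA (h : FData p A B Gi K J P) : A * A = 0 := by
  calc A * A = (A * p) * A := by rw [h.Ap]
    _ = A * (p * A) := mul_assoc _ _ _
    _ = 0 := by rw [h.pA, mul_zero]

lemma sAsA (h : FData p A B Gi K J P) : star A * star A = 0 := by
  have := congrArg star h.AA
  rwa [star_mul, star_zero] at this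

lemma BA (h : FData p A B Gi K J P) : B * A = 0 := by
  calc B * A = (B * p) * A := by rw [h.Bp]
    _ = B * (p * A) := mul_assoc _ _ _
    _ = 0 := by rw [h.pA, mul_zero]

lemma sAB (h : FData p A B Gi K J P) : star A * B = 0 := by
  have := congrArg star h.BA
  rwa [star_mul, star_zero, h.Bs] at this

lemma pG (h : FData p A B Gi K J P) : p * (1 + star A * A) = p + star A * A := by
  rw [mul_add, mul_one, ← mul_assoc, h.psA]

/-- `G p = p G` -/
lemma Gp (h : FData p A B Gi K J P) : (1 + star A * A) * p = p * (1 + star A * A) := by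
  rw [add_mul, mul_add, one_mul, mul_one, mul_assoc, h.Ap, ← mul_assoc p, h.psA]

lemma Gip (h : FData p A B Gi K J P) : Gi * p = p * Gi := by
  calc Gi * p = Gi * p * ((1 + star A * A) * Gi) := by rw [h.GGi, mul_one]
    _ = Gi * (p * (1 + star A * A)) * Gi := by simp only [mul_assoc]
    _ = Gi * ((1 + star A * A) * p) * Gi := by rw [h.Gp]
    _ = (Gi * (1 + star A * A)) * p * Gi := by simp only [mul_assoc]
    _ = p * Gi := by rw [h.GiG, one_mul]

lemma GBp (h : FData p A B Gi K J P) :
    (1 + star A * A - B) * p = p * (1 + star A * A - B) := by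
  rw [sub_mul, mul_sub, h.Gp, h.Bp, h.pB]

lemma Kp (h : FData p A B Gi K J P) : K * p = p * K := by
  calc K * p = K * p * ((1 + star A * A - B) * K) := by rw [h.GK, mul_one]
    _ = K * (p * (1 + star A * A - B)) * K := by simp only [mul_assoc]
    _ = K * ((1 + star A * A - B) * p) * K := by rw [h.GBp]
    _ = (K * (1 + star A * A - B)) * p * K := by simp only [mul_assoc]
    _ = p * K := by rw [h.KG, one_mul]

lemma Gis (h : FData p A B Gi K J P) : star Gi = Gi := by
  have h1 : (1 + star A * A) * star Gi = 1 := by
    have := congrArg star h.GiG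
    simpa using this
  calc star Gi = (Gi * (1 + star A * A)) * star Gi := by rw [h.GiG, one_mul]
    _ = Gi * ((1 + star A * A) * star Gi) := mul_assoc _ _ _
    _ = Gi := by rw [h1, mul_one]

lemma Ks (h : FData p A B Gi K J P) : star K = K := by
  have h1 : (1 + star A * A - B) * star K = 1 := by
    have := congrArg star h.KG
    simpa [h.Bs] using this
  calc star K = (K * (1 + star A * A - B)) * star K := by rw [h.KG, one_mul]
    _ = K * ((1 + star A * A - B) * star K) := mul_assoc _ _ _
    _ = K := by rw [h1, mul_one]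

/-- `K = Gi + K B Gi` -/
lemma K_eq (h : FData p A B Gi K J P) : K = Gi + K * B * Gi := by
  have h1 : K * (1 + star A * A) = 1 + K * B := by
    have := h.KG
    rw [mul_sub] at this
    exact sub_eq_iff_eq_add.1 this
  calc K = K * ((1 + star A * A) * Gi) := by rw [h.GGi, mul_one]
    _ = (K * (1 + star A * A)) * Gi := (mul_assoc _ _ _).symm
    _ = Gi + K * B * Gi := by rw [h1, add_mul, one_mul]

/-- `K G p = p + K B` -/
lemma KGp (h : FData p A B Gi K J P) : K * (p + star A * A) = p + K * B := by
  have h1 : K * (1 + star A * A) = 1 + K * B := by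
    have := h.KG
    rw [mul_sub] at this
    exact sub_eq_iff_eq_add.1 this
  have h2 := congrArg (· * p) h1
  simp only [add_mul, mul_assoc, h.Ap, one_mul, h.Bp] at h2
  exact h2

/-- `(p + A*) D = (G - B) p` -/
lemma pD (h : FData p A B Gi K J P) :
    (p + star A) * (1 + A - star A - B) = (1 + star A * A - B) * p := by
  have e : (p + star A) * (1 + A - star A - B)
      = p + p * A - p * star A - p * B + star A + star A * A - star A * star A - star A * B := by
    noncomm_ring
  have e2 : (1 + star A * A - B) * p = p + star A * (A * p) - B * p := by noncomm_ring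
  rw [e, e2, h.pA, h.psA, h.pB, h.sAsA, h.sAB, h.Ap, h.Bp]
  abel

/-- `p J = K (p + A*)` -/
lemma pJ (h : FData p A B Gi K J P) : p * J = K * (p + star A) := by
  have h1 : (p + star A) = (1 + star A * A - B) * (p * J) := by
    calc p + star A = (p + star A) * ((1 + A - star A - B) * J) := by rw [h.DJ, mul_one]
      _ = ((p + star A) * (1 + A - star A - B)) * J := (mul_assoc _ _ _).symm
      _ = (1 + star A * A - B) * (p * J) := by rw [h.pD, mul_assoc]
  calc p * J = (K * (1 + star A * A - B)) * (p * J) := by rw [h.KG, one_mul]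
    _ = K * ((1 + star A * A - B) * (p * J)) := mul_assoc _ _ _
    _ = K * (p + star A) := by rw [← h1]

/-- `(1 - p) J = (1 - p) - A K (p + A*)` -/
lemma qJ (h : FData p A B Gi K J P) :
    (1 - p) * J = (1 - p) - A * (K * (p + star A)) := by
  have e : (1 - p) * (1 + A - star A - B) = (1 - p) + A := by
    have : (1 - p) * (1 + A - star A - B)
        = 1 + A - star A - B - p - p * A + p * star A + p * B := by noncomm_ring
    rw [this, h.pA, h.psA, h.pB]; abel
  have h1 : (1 - p) = (1 - p) * J + A * J := by
    calc (1 - p) = (1 - p) * ((1 + A - star A - B) * J) := by rw [h.DJ, mul_one]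
      _ = ((1 - p) * (1 + A - star A - B)) * J := (mul_assoc _ _ _).symm
      _ = (1 - p) * J + A * J := by rw [e, add_mul]
  have h2 : A * J = A * (K * (p + star A)) := by
    calc A * J = (A * p) * J := by rw [h.Ap]
      _ = A * (p * J) := mul_assoc _ _ _
      _ = _ := by rw [h.pJ]
  rw [← h2]
  exact eq_sub_of_add_eq h1.symm

/-- `(p + A*)(p + A) = p + A* A` -/
lemma sq (h : FData p A B Gi K J P) : (p + star A) * (p + A) = p + star A * A := by
  have : (p + star A) * (p + A) = p * p + p * A + star A * p + star A * A := by noncomm_ring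
  rw [this, h.pp, h.pA, h.sAp]; abel

end FData

/-- the orthogonal projection on the tangent plane of the graph -/
def proj (p A Gi : R) : R := (p + A) * Gi * (p + star A)

/-- the defect `N = (p + A*)(1 - P)` -/
def dN (p A P : R) : R := (p + star A) * (1 - P)

/-- `Z = N N*` -/
def dZ (p A P : R) : R := (p + star A) * (1 - P) * (p + A)

namespace FData

variable {p A B Gi K J P : R}

lemma star_proj (h : FData p A B Gi K J P) : star (proj p A Gi) = proj p A Gi := by
  unfold proj
  simp only [star_mul, star_add, star_star, h.ps, h.Gis, mul_assoc]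

/-- `(p + A*) Π = p + A*` -/
lemma mul_proj (h : FData p A B Gi K J P) : (p + star A) * proj p A Gi = p + star A := by
  unfold proj
  calc (p + star A) * ((p + A) * Gi * (p + star A))
      = ((p + star A) * (p + A)) * Gi * (p + star A) := by simp only [mul_assoc]
    _ = (p * (1 + star A * A)) * Gi * (p + star A) := by
        rw [h.sq, h.pG]
    _ = p * ((1 + star A * A) * Gi) * (p + star A) := by simp only [mul_assoc]
    _ = p + star A := by rw [h.GGi, mul_one, mul_add, h.pp, h.psA]

/-- `Π (p + A) = p + A` -/
lemma proj_mul (h : FData p A B Gi K J P) : proj p A Gi * (p + A) = p + A := by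
  have := congrArg star h.mul_proj
  simpa only [star_mul, star_add, star_star, h.ps, h.star_proj] using this

lemma proj_sq (h : FData p A B Gi K J P) : proj p A Gi * proj p A Gi = proj p A Gi := by
  calc proj p A Gi * proj p A Gi = (proj p A Gi * (p + A)) * Gi * (p + star A) := by
        conv_lhs => rhs; unfold proj
        simp only [mul_assoc]
    _ = _ := by rw [h.proj_mul]; rfl

/-- `p Π = Gi (p + A*)` -/
lemma p_proj (h : FData p A B Gi K J P) : p * proj p A Gi = Gi * (p + star A) := by
  unfold proj
  calc p * ((p + A) * Gi * (p + star A)) = (p * p + p * A) * Gi * (p + star A) := by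
        simp only [mul_add, mul_assoc, add_mul]
    _ = (Gi * p) * (p + star A) := by rw [h.pp, h.pA, add_zero, h.Gip]
    _ = Gi * (p + star A) := by rw [mul_assoc, mul_add p, h.pp, h.psA]

/-- `A p Π = (1 - p) Π` -/
lemma A_proj (h : FData p A B Gi K J P) :
    A * (Gi * (p + star A)) = (1 - p) * proj p A Gi := by
  unfold proj
  have e1 : (1 - p) * ((p + A) * Gi * (p + star A))
      = (p + A - p * p - p * A) * Gi * (p + star A) := by noncomm_ring
  rw [e1, h.pp, h.pA]
  have : (p + A - p - 0) = A := by abel
  rw [this, mul_assoc]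

lemma dN_mul_star (h : FData p A B Gi K J P) : dN p A P * star (dN p A P) = dZ p A P := by
  unfold dN dZ
  have e : (1 - P) * (1 - P) = 1 - P := by
    have : (1 - P) * (1 - P) = 1 - P - P + P * P := by noncomm_ring
    rw [this, h.PP]; abel
  simp only [star_mul, star_add, star_sub, star_one, star_star, h.ps, h.Ps]
  calc (p + star A) * (1 - P) * ((1 - P) * (p + A))
      = (p + star A) * ((1 - P) * (1 - P)) * (p + A) := by simp only [mul_assoc]
    _ = _ := by rw [e]

lemma p_dN (h : FData p A B Gi K J P) : p * dN p A P = dN p A P := by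
  unfold dN
  rw [← mul_assoc, mul_add, h.pp, h.psA]

/-- `(p + A*) P = (p + A*) - N` -/
lemma mul_P (h : FData p A B Gi K J P) : (p + star A) * P = (p + star A) - dN p A P := by
  unfold dN
  rw [mul_sub, mul_one]; abel

/-- `N p = Z - N A` -/
lemma dN_p (h : FData p A B Gi K J P) : dN p A P * p = dZ p A P - dN p A P * A := by
  unfold dN dZ
  rw [mul_add ((p + star A) * (1 - P))]; abel

/-- `W = (p + A*) P (p + A) = G p - Z` -/
lemma W_eq (h : FData p A B Gi K J P) :
    (p + star A) * P * (p + A) = (p + star A * A) - dZ p A P := by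
  unfold dZ
  have : (p + star A) * (1 - P) * (p + A)
      = (p + star A) * (p + A) - (p + star A) * P * (p + A) := by
    rw [mul_sub, mul_one, sub_mul]
  rw [this, h.sq]; abel

end FData

section trace

variable (τ : R →+ ℝ) (hτ : ∀ a b, τ (a * b) = τ (b * a)) {p A B Gi K J P : R}

/-- the excess relative to the graph -/
def eS (τ : R →+ ℝ) (p A Gi P : R) : ℝ := τ ((1 - proj p A Gi) * P)

include hτ

lemma FData.tr_proj (h : FData p A B Gi K J P) : τ (proj p A Gi) = τ p := by
  unfold proj
  calc τ ((p + A) * Gi * (p + star A)) = τ (((p + star A) * (p + A)) * Gi) := by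
        rw [hτ]; simp only [mul_assoc]
    _ = τ (p * ((1 + star A * A) * Gi)) := by
        rw [h.sq]; congr 1
        rw [← mul_assoc, h.pG]
    _ = τ p := by rw [h.GGi, mul_one]

/-- `e_S = tr (G⁻¹ Z)` if `tr P = tr p` -/
lemma FData.eS_eq (h : FData p A B Gi K J P) (hm : τ P = τ p) :
    eS τ p A Gi P = τ (Gi * dZ p A P) := by
  have h1 : τ (Gi * dZ p A P) = τ (proj p A Gi) - τ (proj p A Gi * P) := by
    unfold dZ
    calc τ (Gi * ((p + star A) * (1 - P) * (p + A)))
        = τ ((Gi * ((p + star A) * (1 - P))) * (p + A)) := by simp only [mul_assoc]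
      _ = τ ((p + A) * (Gi * ((p + star A) * (1 - P)))) := by rw [hτ]
      _ = τ (proj p A Gi * (1 - P)) := by unfold proj; simp only [mul_assoc]
      _ = _ := by rw [mul_sub, mul_one, map_sub]
  rw [h1, h.tr_proj τ hτ]
  unfold eS
  rw [sub_mul, one_mul, map_sub, hm]

/-- **Bulk 1**, exact: the vertical field. -/
theorem FData.bulk_one (h : FData p A B Gi K J P) (hm : τ P = τ p) :
    τ (((1 + A - star A - B) - (p + A)) * J * P) - eS τ p A Gi P
      = τ (K * B * Gi * dZ p A P) - τ (K * B * Gi * B) - τ (Gi * B) := by
  have e1 : ((1 + A - star A - B) - (p + A)) * J * P = P - (p + A) * (K * (p + star A)) * P := by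
    rw [sub_mul, h.DJ, sub_mul, one_mul]
    congr 2
    have : (p + A) = (p + A) * p := by rw [add_mul, h.pp, h.Ap]
    calc (p + A) * J = ((p + A) * p) * J := by rw [← this]
      _ = (p + A) * (p * J) := mul_assoc _ _ _
      _ = _ := by rw [h.pJ]
  have e2 : τ ((p + A) * (K * (p + star A)) * P) = τ (K * ((p + star A) * P * (p + A))) := by
    calc τ ((p + A) * (K * (p + star A)) * P) = τ ((p + A) * ((K * (p + star A)) * P)) := by
          rw [mul_assoc]
      _ = τ (((K * (p + star A)) * P) * (p + A)) := by rw [hτ]
      _ = _ := by simp only [mul_assoc]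
  have e3 : K * ((p + star A) * P * (p + A)) = p + K * B - K * dZ p A P := by
    rw [h.W_eq, mul_sub, h.KGp]
  have e4 : τ (K * dZ p A P) = τ (Gi * dZ p A P) + τ (K * B * Gi * dZ p A P) := by
    conv_lhs => rw [h.K_eq]
    rw [add_mul, map_add]
  have e5 : τ (K * B) = τ (Gi * B) + τ (K * B * Gi * B) := by
    conv_lhs => rw [h.K_eq]
    rw [add_mul, map_add]
  rw [e1, map_sub, e2, e3, map_sub, map_add, e4, e5, hm, h.eS_eq τ hτ hm]
  ring

/-- the part `D Bt` of the radial field -/
lemma FData.part_Bt (h : FData p A B Gi K J P) (hm : τ P = τ p) {Bt : R} (hBp : Bt * p = Bt)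
    (hpB : p * Bt = Bt) :
    τ ((1 + A - star A - B) * Bt * J * P)
      = τ Bt - τ ((1 - B) * Bt * K * dZ p A P) - τ (B * Bt * K * dN p A P * A) := by
  have e1 : (1 + A - star A - B) * Bt * J * P
      = (p + A - B) * (Bt * (K * ((p + star A) * P))) := by
    have a1 : (1 + A - star A - B) * Bt = (p + A - B) * Bt := by
      have : (1 + A - star A - B) * Bt = (1 + A - B) * Bt - (star A * p) * Bt := by
        rw [mul_assoc, hpB]; noncomm_ring
      rw [this, h.sAp, zero_mul, sub_zero]
      have : (p + A - B) * Bt = p * Bt + A * Bt - B * Bt := by noncomm_ring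
      rw [this, hpB]; noncomm_ring
    have a2 : Bt * J = Bt * (K * (p + star A)) := by
      calc Bt * J = (Bt * p) * J := by rw [hBp]
        _ = Bt * (p * J) := mul_assoc _ _ _
        _ = _ := by rw [h.pJ]
    rw [a1, mul_assoc (p + A - B), a2]
    simp only [mul_assoc]
  have e2 : τ ((p + A - B) * (Bt * (K * ((p + star A) * P))))
      = τ (Bt * (K * ((p + star A) * P * (p + A)))) - τ (B * (Bt * (K * ((p + star A) * P)))) := by
    rw [sub_mul, map_sub]
    congr 1
    rw [hτ]
    simp only [mul_assoc]
  have e3 : B * (Bt * (K * ((p + star A) * P))) = p * (B * (Bt * (K * ((p + star A) * P)))) := by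
    rw [← mul_assoc p B, h.pB]
  have e4 : τ (B * (Bt * (K * ((p + star A) * P))))
      = τ (B * (Bt * (K * ((p + star A) * P * p)))) := by
    rw [e3, hτ]; simp only [mul_assoc]
  have e5 : (p + star A) * P * p = p - dZ p A P + dN p A P * A := by
    rw [h.mul_P, sub_mul, add_mul, h.pp, h.sAp, h.dN_p]; abel
  rw [e1, e2, e4, e5, h.W_eq, mul_sub K, h.KGp]
  have f1 : Bt * (p + K * B - K * dZ p A P) = Bt + Bt * K * B - Bt * K * dZ p A P := by
    have : Bt * (p + K * B - K * dZ p A P) = Bt * p + Bt * K * B - Bt * K * dZ p A P := by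
      noncomm_ring
    rw [this, hBp]
  have f2 : B * (Bt * (K * (p - dZ p A P + dN p A P * A)))
      = B * Bt * (K * p) - B * Bt * K * dZ p A P + B * Bt * K * dN p A P * A := by
    noncomm_ring
  have f3 : τ (B * Bt * (K * p)) = τ (Bt * K * B) := by
    rw [h.Kp]
    calc τ (B * Bt * (p * K)) = τ (B * ((Bt * p) * K)) := by simp only [mul_assoc]
      _ = τ (B * (Bt * K)) := by rw [hBp]
      _ = τ (Bt * K * B) := by rw [hτ]
  rw [f1, f2]
  simp only [map_sub, map_add]
  rw [f3]
  have f4 : (1 - B) * Bt * K * dZ p A P = Bt * K * dZ p A P - B * Bt * K * dZ p A P := by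
    noncomm_ring
  rw [f4, map_sub]
  ring

/-- the part `C - C*` of the radial field -/
lemma FData.part_C (h : FData p A B Gi K J P) (hst : ∀ a, τ (star a) = τ a) {C : R}
    (hCp : C * p = C) (hpC : p * C = 0) :
    τ ((C - star C) * J * P)
      = τ (Gi * star A * C) - τ (C * ((P - proj p A Gi) * (P - proj p A Gi)))
        + τ (K * B * Gi * (star A * C + star C * A))
        - τ ((C + star C * A) * (K * B * Gi) * dN p A P) := by
  have hCs : p * star C = star C := by
    have := congrArg star hCp
    rwa [star_mul, h.ps] at this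
  have hsC : star C * p = 0 := by
    have := congrArg star hpC
    rwa [star_mul, h.ps, star_zero] at this
  -- C J P
  have e1 : C * J * P = C * (K * ((p + star A) * P)) := by
    calc C * J * P = ((C * p) * J) * P := by rw [hCp]
      _ = C * (p * J) * P := by simp only [mul_assoc]
      _ = _ := by rw [h.pJ]; simp only [mul_assoc]
  have e2 : star C * J * P = star C * P - star C * (A * (K * ((p + star A) * P))) := by
    have : star C = star C * (1 - p) := by rw [mul_sub, mul_one, hsC, sub_zero]
    calc star C * J * P = (star C * (1 - p)) * J * P := by rw [← this]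
      _ = star C * ((1 - p) * J) * P := by simp only [mul_assoc]
      _ = star C * ((1 - p) - A * (K * (p + star A))) * P := by rw [h.qJ]
      _ = (star C * (1 - p)) * P - star C * (A * (K * ((p + star A) * P))) := by
          rw [mul_sub, sub_mul]; simp only [mul_assoc]
      _ = _ := by rw [← this]
  set M : R := K * B * Gi with hM
  set Y : R := (p + star A) * P with hY
  have hK : K = Gi + M := h.K_eq
  have e3 : C * (K * Y) = C * (Gi * Y) + C * M * Y := by
    conv_lhs => rw [hK]
    noncomm_ring
  have e4 : star C * (A * (K * Y)) = star C * (A * (Gi * Y)) + star C * A * M * Y := by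
    conv_lhs => rw [hK]
    noncomm_ring
  -- the leading part
  have g1 : C * (Gi * Y) = C * (proj p A Gi * P) := by
    have : Gi * Y = p * (proj p A Gi * P) := by
      rw [← mul_assoc p, h.p_proj, hY]; simp only [mul_assoc]
    rw [this, ← mul_assoc, hCp]
  have g2 : star C * (A * (Gi * Y)) = star C * (proj p A Gi * P) := by
    have : A * (Gi * Y) = (1 - p) * (proj p A Gi * P) := by
      rw [← mul_assoc (1 - p), ← h.A_proj, hY]; simp only [mul_assoc]
    rw [this, ← mul_assoc, mul_sub, mul_one, hsC, sub_zero]
  have g3 : τ (star C * P) = τ (C * P) := by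
    have : star (C * P) = P * star C := by rw [star_mul, h.Ps]
    rw [← hst (C * P), this, hτ]
  have g4 : τ (star C * (proj p A Gi * P)) = τ (C * (P * proj p A Gi)) := by
    have : star (C * (P * proj p A Gi)) = proj p A Gi * P * star C := by
      rw [star_mul, star_mul, h.Ps, h.star_proj]
    rw [← hst (C * (P * proj p A Gi)), this, hτ (proj p A Gi * P)]
  have g5 : C * ((P - proj p A Gi) * (P - proj p A Gi))
      = C * P + C * proj p A Gi - C * (P * proj p A Gi) - C * (proj p A Gi * P) := by
    have : (P - proj p A Gi) * (P - proj p A Gi)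
        = P * P - P * proj p A Gi - proj p A Gi * P + proj p A Gi * proj p A Gi := by
      noncomm_ring
    rw [this, h.PP, h.proj_sq]
    noncomm_ring
  have g6 : τ (C * proj p A Gi) = τ (Gi * star A * C) := by
    have a1 : C * proj p A Gi = (C * Gi) * (p + star A) := by
      calc C * proj p A Gi = (C * p) * proj p A Gi := by rw [hCp]
        _ = C * (p * proj p A Gi) := mul_assoc _ _ _
        _ = _ := by rw [h.p_proj]; simp only [mul_assoc]
    have a2 : (p + star A) * (C * Gi) = star A * (C * Gi) := by
      rw [add_mul, ← mul_assoc p, hpC, zero_mul, zero_add]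
    rw [a1, hτ, a2, ← mul_assoc, hτ, mul_assoc]
  -- the M part
  have m1 : C * M * Y = C * M * (p + star A) - C * M * dN p A P := by
    rw [hY, h.mul_P, mul_sub]
  have m2 : star C * A * M * Y = star C * A * M * (p + star A) - star C * A * M * dN p A P := by
    rw [hY, h.mul_P, mul_sub]
  have hMp : M * p = M := by
    rw [hM, mul_assoc, h.Gip, ← mul_assoc, mul_assoc K, h.Bp]
  have m3 : τ (C * M * (p + star A)) = τ (M * (star A * C)) := by
    rw [mul_add, map_add]
    have a1 : τ (C * M * p) = 0 := by
      rw [hτ, ← mul_assoc p, hpC, zero_mul, map_zero]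
    rw [a1, zero_add, hτ, ← mul_assoc, hτ (star A * C)]
  have m4 : τ (star C * A * M * (p + star A)) = τ (M * (star C * A)) := by
    rw [mul_add, map_add]
    have a1 : τ (star C * A * M * star A) = 0 := by
      rw [hτ]
      have : star A * (star C * A * M) = (star A * p) * (star C * A * M) := by
        rw [mul_assoc (star A), ← mul_assoc p, ← mul_assoc p, hCs]
      rw [this, h.sAp, zero_mul, map_zero]
    rw [a1, add_zero, mul_assoc (star C * A), hMp, hτ]
  have t1 : (C - star C) * J * P = C * J * P - star C * J * P := by noncomm_ring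
  rw [t1, map_sub, e1, e2, e3, map_sub, e4, g1, g2, map_add, map_add, g3, g4, m1, m2, map_sub,
    map_sub, m3, m4, g5]
  simp only [map_add, map_sub, mul_add, add_mul]
  rw [g6]
  ring

/-- the part `F` of the radial field -/
lemma FData.part_F (h : FData p A B Gi K J P) {F : R} (hFp : F * p = F) (hpF : p * F = F) :
    τ (F * J * P) = τ (F * K) - τ (F * K * dZ p A P) + τ (F * K * dN p A P * A) := by
  have e1 : F * J * P = F * (K * ((p + star A) * P)) := by
    calc F * J * P = ((F * p) * J) * P := by rw [hFp]
      _ = F * (p * J) * P := by simp only [mul_assoc]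
      _ = _ := by rw [h.pJ]; simp only [mul_assoc]
  have e2 : τ (F * (K * ((p + star A) * P))) = τ (F * (K * ((p + star A) * P * p))) := by
    have : F * (K * ((p + star A) * P)) = p * (F * (K * ((p + star A) * P))) := by
      rw [← mul_assoc p F, hpF]
    rw [this, hτ]; simp only [mul_assoc]
  have e3 : (p + star A) * P * p = p - dZ p A P + dN p A P * A := by
    rw [h.mul_P, sub_mul, add_mul, h.pp, h.sAp, h.dN_p]; abel
  have e4 : F * (K * (p - dZ p A P + dN p A P * A))
      = F * (K * p) - F * K * dZ p A P + F * K * dN p A P * A := by noncomm_ring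
  rw [e1, e2, e3, e4, h.Kp, ← mul_assoc F p, hFp, map_add, map_sub]

/-- **Bulk 2**, exact: the radial field `D β`. -/
theorem FData.bulk_two (h : FData p A B Gi K J P) (hm : τ P = τ p)
    (hst : ∀ a, τ (star a) = τ a) {Bt C F : R} (hBp : Bt * p = Bt) (hpB : p * Bt = Bt)
    (hCp : C * p = C) (hpC : p * C = 0) (hFp : F * p = F) (hpF : p * F = F)
    (hmin : τ (Gi * F) = τ (Gi * (star C * A + star A * C) * Gi * B)) :
    τ (((1 + A - star A - B) * Bt + C - star C - F) * J * P)
        - (τ Bt + τ (Gi * star A * C) - eS τ p A Gi P)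
      = τ ((Gi - (1 - B) * Bt * K) * dZ p A P) - τ (B * Bt * K * dN p A P * A)
        - τ (C * ((P - proj p A Gi) * (P - proj p A Gi)))
        - τ ((C + star C * A) * (K * B * Gi) * dN p A P)
        + τ (F * K * dZ p A P) - τ (F * K * dN p A P * A)
        + τ (K * B * Gi * B * Gi * (star A * C + star C * A)) - τ (F * (K * B * Gi)) := by
  have e1 : ((1 + A - star A - B) * Bt + C - star C - F) * J * P
      = (1 + A - star A - B) * Bt * J * P + (C - star C) * J * P - F * J * P := by noncomm_ring
  have e2 : τ (F * K) = τ (Gi * F) + τ (F * (K * B * Gi)) := by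
    conv_lhs => rw [h.K_eq]
    rw [mul_add, map_add, hτ F Gi]
  have e3 : τ (K * B * Gi * (star A * C + star C * A))
      = τ (Gi * (star C * A + star A * C) * Gi * B)
        + τ (K * B * Gi * B * Gi * (star A * C + star C * A)) := by
    have a1 : K * B * Gi * (star A * C + star C * A)
        = Gi * B * Gi * (star A * C + star C * A)
          + K * B * Gi * B * Gi * (star A * C + star C * A) := by
      have : K * B * Gi * (star A * C + star C * A)
          = K * (B * Gi * (star A * C + star C * A)) := by simp only [mul_assoc]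
      rw [this]
      conv_lhs => rw [h.K_eq]
      noncomm_ring
    rw [a1, map_add]
    congr 1
    calc τ (Gi * B * Gi * (star A * C + star C * A))
        = τ ((Gi * B) * (Gi * (star A * C + star C * A))) := by simp only [mul_assoc]
      _ = τ ((Gi * (star A * C + star C * A)) * (Gi * B)) := by rw [hτ]
      _ = _ := by
          rw [add_comm (star A * C)]; simp only [mul_assoc]
  rw [e1, map_sub, map_add, h.part_Bt τ hτ hm hBp hpB, h.part_C τ hτ hst hCp hpC,
    h.part_F τ hτ hFp hpF, e2, e3, hmin, h.eS_eq τ hτ hm]
  have e4 : (Gi - (1 - B) * Bt * K) * dZ p A P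
      = Gi * dZ p A P - (1 - B) * Bt * K * dZ p A P := by noncomm_ring
  rw [e4, map_sub]
  ring

end trace

end Vale.Agent.P214.ODEF
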