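import Vale.Agent.P214.FM.Cyl
import Vale.Agent.P214.ODEF.BulkAlg
import Mathlib.Analysis.InnerProductSpace.Adjoint
import Mathlib.Analysis.Calculus.FDeriv.Mul
import Mathlib.Algebra.Order.Chebyshev

/-!
# P214, block ODEF: pointwise bulk estimates in Fermi coordinates

`bulk_om`: the trace of the differential of the vertical Fermi field equals the tilt `e_Σ` up to
`O(κ|u| e_Σ + κ²|u|²)`.  `bulk_rad`: the same for the field `DΨ(β)` of a base field `β`.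
-/

open Set Filter Topology MeasureTheory Metric
open scoped RealInnerProductSpace ContDiff

set_option linter.all false

namespace Vale.Agent.P214.ODEF

open FV FM

variable {E : Type*} [NormedAddCommGroup E] [InnerProductSpace ℝ E] [FiniteDimensional ℝ E]

/-- the trace as an additive map -/
noncomputable def trH : (E →L[ℝ] E) →+ ℝ where
  toFun := tr
  map_zero' := tr_zero
  map_add' := tr_add

lemma trH_apply (A : E →L[ℝ] E) : trH A = tr A := rfl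

lemma trH_comm (A B : E →L[ℝ] E) : trH (A * B) = trH (B * A) := tr_comp_comm A B

lemma trH_star (A : E →L[ℝ] E) : trH (star A) = trH A := tr_adj A

lemma star_def (A : E →L[ℝ] E) : star A = adj A := rfl

/-- coercive operators are invertible -/
lemma isUnit_of_coercive (L : E →L[ℝ] E) {c : ℝ} (hc : 0 < c)
    (h : ∀ v, c * ‖v‖ ^ 2 ≤ ⟪L v, v⟫) : IsUnit L := by
  have h1 : Function.Injective L := by
    rw [injective_iff_map_eq_zero]
    intro v hv
    have := h v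
    rw [hv, inner_zero_left] at this
    have h2 : ‖v‖ ^ 2 ≤ 0 := by nlinarith [sq_nonneg ‖v‖]
    have h3 : ‖v‖ = 0 := by nlinarith [norm_nonneg v, sq_nonneg ‖v‖]
    exact norm_eq_zero.1 h3
  let M : E ≃ₗ[ℝ] E := LinearEquiv.ofInjectiveEndo (L : E →ₗ[ℝ] E) h1
  have h2 : ((M.toContinuousLinearEquiv : E ≃L[ℝ] E) : E →L[ℝ] E) = L := by
    ext v; rfl
  rw [← h2]
  refine ⟨⟨(M.toContinuousLinearEquiv : E →L[ℝ] E),
    (M.toContinuousLinearEquiv.symm : E →L[ℝ] E), ?_, ?_⟩, rfl⟩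
  · exact M.toContinuousLinearEquiv.coe_comp_coe_symm
  · exact M.toContinuousLinearEquiv.coe_symm_comp_coe

lemma norm_inverse_le (L : E →L[ℝ] E) {c : ℝ} (hc : 0 < c)
    (h : ∀ v, c * ‖v‖ ^ 2 ≤ ⟪L v, v⟫) : ‖Ring.inverse L‖ ≤ c⁻¹ := by
  refine ContinuousLinearMap.opNorm_le_bound _ (by positivity) fun v => ?_
  have h1 : L * Ring.inverse L = 1 := Ring.mul_inverse_cancel L (isUnit_of_coercive L hc h)
  have h2 : L (Ring.inverse L v) = v := congrArg (fun M : E →L[ℝ] E => M v) h1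
  have h3 := h (Ring.inverse L v)
  rw [h2] at h3
  have h4 : ⟪v, Ring.inverse L v⟫ ≤ ‖v‖ * ‖Ring.inverse L v‖ := real_inner_le_norm _ _
  rcases eq_or_lt_of_le (norm_nonneg (Ring.inverse L v)) with h0 | h0
  · rw [← h0]; positivity
  · rw [← div_eq_inv_mul, le_div_iff₀ hc]
    nlinarith

/-- `G = 1 + A* A` is coercive -/
lemma coercive_G (A : E →L[ℝ] E) (v : E) : 1 * ‖v‖ ^ 2 ≤ ⟪(1 + star A * A) v, v⟫ := by
  have h1 : (1 + star A * A) v = v + adj A (A v) := rfl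
  rw [h1, inner_add_left, inner_adj_left, real_inner_self_eq_norm_sq, real_inner_self_eq_norm_sq]
  nlinarith [sq_nonneg ‖A v‖]

lemma coercive_K (A B : E →L[ℝ] E) (hB : ‖B‖ ≤ 1 / 2) (v : E) :
    (1 / 2 : ℝ) * ‖v‖ ^ 2 ≤ ⟪(1 + star A * A - B) v, v⟫ := by
  have h1 : (1 + star A * A - B) v = (1 + star A * A) v - B v := rfl
  rw [h1, inner_sub_left]
  have h2 := coercive_G A v
  have h3 : ⟪B v, v⟫ ≤ 1 / 2 * ‖v‖ ^ 2 := by
    calc ⟪B v, v⟫ ≤ ‖B v‖ * ‖v‖ := real_inner_le_norm _ _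
      _ ≤ (‖B‖ * ‖v‖) * ‖v‖ := by gcongr; exact B.le_opNorm v
      _ ≤ (1 / 2 * ‖v‖) * ‖v‖ := by gcongr
      _ = _ := by ring
  linarith

/-- `G⁻¹` -/
noncomputable def Gi (A : E →L[ℝ] E) : E →L[ℝ] E := Ring.inverse (1 + star A * A)

/-- `(G - B)⁻¹` -/
noncomputable def Ki (A B : E →L[ℝ] E) : E →L[ℝ] E := Ring.inverse (1 + star A * A - B)

lemma norm_Gi_le (A : E →L[ℝ] E) : ‖Gi A‖ ≤ 1 := by
  have := norm_inverse_le _ one_pos (coercive_G A)
  simpa [Gi] using this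

lemma norm_Ki_le (A B : E →L[ℝ] E) (hB : ‖B‖ ≤ 1 / 2) : ‖Ki A B‖ ≤ 2 := by
  have := norm_inverse_le _ (by norm_num : (0:ℝ) < 1 / 2) (coercive_K A B hB)
  simpa [Ki] using this

lemma hs_mul_le (L X : E →L[ℝ] E) : hs (L * X) ≤ ‖L‖ ^ 2 * hs X := by
  unfold hs
  rw [Finset.mul_sum]
  refine Finset.sum_le_sum fun k _ => ?_
  rw [← mul_pow]
  gcongr
  exact L.le_opNorm _

/-- `|tr (L N N*)| ≤ ‖L‖ hs N` -/
lemma abs_tr_mul_le (L N : E →L[ℝ] E) : |trH (L * (N * star N))| ≤ ‖L‖ * hs N := by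
  have h1 : trH (L * (N * star N)) = trH (star N * (L * N)) := by
    rw [← mul_assoc, trH_comm]
  rw [h1, trH_apply, tr_eq_sum (stdOrthonormalBasis ℝ E)]
  refine (Finset.abs_sum_le_sum_abs _ _).trans ?_
  unfold hs
  rw [Finset.mul_sum]
  refine Finset.sum_le_sum fun k _ => ?_
  have h2 : (star N * (L * N)) (stdOrthonormalBasis ℝ E k)
      = adj N (L (N (stdOrthonormalBasis ℝ E k))) := rfl
  rw [h2, inner_adj_right]
  calc |⟪N (stdOrthonormalBasis ℝ E k), L (N (stdOrthonormalBasis ℝ E k))⟫|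
      ≤ ‖N (stdOrthonormalBasis ℝ E k)‖ * ‖L (N (stdOrthonormalBasis ℝ E k))‖ :=
        abs_real_inner_le_norm _ _
    _ ≤ ‖N (stdOrthonormalBasis ℝ E k)‖ * (‖L‖ * ‖N (stdOrthonormalBasis ℝ E k)‖) := by
        gcongr; exact L.le_opNorm _
    _ = _ := by ring

/-- `|tr (L N)| ≤ √n ‖L‖ √(hs N)` -/
lemma abs_tr_mul_le' (L N : E →L[ℝ] E) :
    |trH (L * N)| ≤ √(Module.finrank ℝ E) * ‖L‖ * √(hs N) := by
  rw [trH_apply, tr_eq_sum (stdOrthonormalBasis ℝ E)]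
  refine (Finset.abs_sum_le_sum_abs _ _).trans ?_
  have h1 : ∀ k ∈ (Finset.univ : Finset (Fin (Module.finrank ℝ E))),
      |⟪stdOrthonormalBasis ℝ E k, (L * N) (stdOrthonormalBasis ℝ E k)⟫|
        ≤ ‖L‖ * ‖N (stdOrthonormalBasis ℝ E k)‖ := by
    intro k _
    calc |⟪stdOrthonormalBasis ℝ E k, (L * N) (stdOrthonormalBasis ℝ E k)⟫|
        ≤ ‖stdOrthonormalBasis ℝ E k‖ * ‖L (N (stdOrthonormalBasis ℝ E k))‖ :=
          abs_real_inner_le_norm _ _
      _ ≤ 1 * (‖L‖ * ‖N (stdOrthonormalBasis ℝ E k)‖) := by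
          gcongr
          · exact ((stdOrthonormalBasis ℝ E).orthonormal.1 k).le
          · exact L.le_opNorm _
      _ = _ := one_mul _
  refine (Finset.sum_le_sum h1).trans ?_
  rw [← Finset.mul_sum]
  have h2 : ∑ k : Fin (Module.finrank ℝ E), ‖N (stdOrthonormalBasis ℝ E k)‖
      ≤ √(Module.finrank ℝ E) * √(hs N) := by
    rw [← Real.sqrt_mul (by positivity)]
    apply Real.le_sqrt_of_sq_le
    have := sq_sum_le_card_mul_sum_sq (s := (Finset.univ : Finset (Fin (Module.finrank ℝ E))))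
      (f := fun k => ‖N (stdOrthonormalBasis ℝ E k)‖)
    simpa [hs] using this
  calc ‖L‖ * ∑ k : Fin (Module.finrank ℝ E), ‖N (stdOrthonormalBasis ℝ E k)‖
      ≤ ‖L‖ * (√(Module.finrank ℝ E) * √(hs N)) := by gcongr
    _ = _ := by ring

section est

variable {p A B Gi K J P : E →L[ℝ] E}

lemma hs_eq_trH (X C : E →L[ℝ] E) (h : star X * X = C) : hs X = trH C := by
  rw [trH_apply]
  refine hs_eq_tr fun v => ?_
  rw [← h]
  have : (star X * X) v = adj X (X v) := rfl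
  rw [this, inner_adj_right]

/-- `hs (Π (1 - P)) = e_S` -/
lemma hs_proj_co (h : FData p A B Gi K J P) (hm : trH P = trH p) :
    hs (proj p A Gi * (1 - P)) = eS trH p A Gi P := by
  rw [hs_eq_trH (proj p A Gi * (1 - P)) ((1 - P) * (proj p A Gi * (1 - P)))]
  · have e1 : trH ((1 - P) * (proj p A Gi * (1 - P))) = trH (proj p A Gi * (1 - P)) := by
      rw [trH_comm, mul_assoc]
      congr 2
      have : (1 - P) * (1 - P) = 1 - P - P + P * P := by noncomm_ring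
      rw [this, h.PP]; abel
    rw [e1, mul_sub, mul_one, map_sub, h.tr_proj trH trH_comm]
    unfold eS
    rw [sub_mul, one_mul, map_sub, hm]
  · simp only [star_mul, star_sub, star_one, h.Ps, h.star_proj]
    calc (1 - P) * proj p A Gi * (proj p A Gi * (1 - P))
        = (1 - P) * ((proj p A Gi * proj p A Gi) * (1 - P)) := by simp only [mul_assoc]
      _ = _ := by rw [h.proj_sq]

lemma eS_nonneg (h : FData p A B Gi K J P) (hm : trH P = trH p) : 0 ≤ eS trH p A Gi P := by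
  rw [← hs_proj_co h hm]; exact hs_nonneg _

/-- `hs (P - Π) = 2 e_S` -/
lemma hs_sub_proj (h : FData p A B Gi K J P) (hm : trH P = trH p) :
    hs (P - proj p A Gi) = 2 * eS trH p A Gi P := by
  rw [hs_eq_trH (P - proj p A Gi)
    (P + proj p A Gi - P * proj p A Gi - proj p A Gi * P)]
  · rw [map_sub, map_sub, map_add, trH_comm P (proj p A Gi), h.tr_proj trH trH_comm]
    unfold eS
    rw [sub_mul, one_mul, map_sub, hm]
    ring
  · rw [star_sub, h.Ps, h.star_proj]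
    have : (P - proj p A Gi) * (P - proj p A Gi)
        = P * P - P * proj p A Gi - proj p A Gi * P + proj p A Gi * proj p A Gi := by
      noncomm_ring
    rw [this, h.PP, h.proj_sq]
    abel

lemma norm_p_le (h : FData p A B Gi K J P) : ‖p‖ ≤ 1 := by
  refine ContinuousLinearMap.opNorm_le_bound _ zero_le_one fun v => ?_
  rw [one_mul]
  have h1 : ‖p v‖ ^ 2 = ⟪v, p v⟫ := by
    rw [← real_inner_self_eq_norm_sq]
    have e1 : ⟪p v, p v⟫ = ⟪v, adj p (p v)⟫ := by rw [inner_adj_right]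
    have e2 : adj p = p := h.ps
    have e3 : p (p v) = p v := congrArg (fun L : E →L[ℝ] E => L v) h.pp
    rw [e1, e2, e3]
  have h2 : ⟪v, p v⟫ ≤ ‖v‖ * ‖p v‖ := real_inner_le_norm _ _
  rcases eq_or_lt_of_le (norm_nonneg (p v)) with h0 | h0
  · rw [← h0]; positivity
  · nlinarith

lemma norm_star_eq (A : E →L[ℝ] E) : ‖star A‖ = ‖A‖ := norm_adj A

/-- `hs N ≤ (1 + ‖A‖)² e_S` -/
lemma hs_dN_le (h : FData p A B Gi K J P) (hm : trH P = trH p) :
    hs (dN p A P) ≤ (1 + ‖A‖) ^ 2 * eS trH p A Gi P := by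
  have e1 : dN p A P = (p + star A) * (proj p A Gi * (1 - P)) := by
    unfold dN
    rw [← mul_assoc, h.mul_proj]
  rw [e1, ← hs_proj_co h hm]
  refine (hs_mul_le _ _).trans ?_
  have h0 := hs_nonneg (proj p A Gi * (1 - P))
  gcongr
  calc ‖p + star A‖ ≤ ‖p‖ + ‖star A‖ := norm_add_le _ _
    _ ≤ 1 + ‖A‖ := by rw [norm_star_eq]; gcongr; exact norm_p_le h

lemma hs_dN_le' (h : FData p A B Gi K J P) (hm : trH P = trH p) (hA : ‖A‖ ≤ 1) :
    hs (dN p A P) ≤ 4 * eS trH p A Gi P := by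
  refine (hs_dN_le h hm).trans ?_
  have h0 := eS_nonneg h hm
  have h1 := norm_nonneg A
  gcongr
  nlinarith

lemma sqrt_hs_dN_le (h : FData p A B Gi K J P) (hm : trH P = trH p) (hA : ‖A‖ ≤ 1) :
    √(hs (dN p A P)) ≤ 2 * √(eS trH p A Gi P) := by
  rw [show (2:ℝ) * √(eS trH p A Gi P) = √(4 * eS trH p A Gi P) by
    rw [Real.sqrt_mul (by norm_num), show (4:ℝ) = 2 ^ 2 by norm_num, Real.sqrt_sq (by norm_num)]]
  exact Real.sqrt_le_sqrt (hs_dN_le' h hm hA)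

/-- `|tr (L Z)| ≤ 4 ‖L‖ e_S` -/
lemma abs_tr_Z_le (h : FData p A B Gi K J P) (hm : trH P = trH p) (hA : ‖A‖ ≤ 1)
    (L : E →L[ℝ] E) {c : ℝ} (hL : ‖L‖ ≤ c) :
    |trH (L * dZ p A P)| ≤ 4 * c * eS trH p A Gi P := by
  rw [← h.dN_mul_star]
  calc _ ≤ ‖L‖ * hs (dN p A P) := abs_tr_mul_le L _
    _ ≤ c * (4 * eS trH p A Gi P) := by
        have := hs_nonneg (dN p A P)
        have hc : 0 ≤ c := (norm_nonneg L).trans hL
        gcongr
        exact hs_dN_le' h hm hA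
    _ = _ := by ring

/-- `|tr (L N)| ≤ 2 √n ‖L‖ √e_S` -/
lemma abs_tr_N_le (h : FData p A B Gi K J P) (hm : trH P = trH p) (hA : ‖A‖ ≤ 1)
    (L : E →L[ℝ] E) {c : ℝ} (hL : ‖L‖ ≤ c) :
    |trH (L * dN p A P)| ≤ 2 * √(Module.finrank ℝ E) * c * √(eS trH p A Gi P) := by
  have hc : 0 ≤ c := (norm_nonneg L).trans hL
  calc _ ≤ √(Module.finrank ℝ E) * ‖L‖ * √(hs (dN p A P)) := abs_tr_mul_le' L _
    _ ≤ √(Module.finrank ℝ E) * c * (2 * √(eS trH p A Gi P)) := by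
        gcongr
        exact sqrt_hs_dN_le h hm hA
    _ = _ := by ring

lemma abs_trH_le (L : E →L[ℝ] E) {c : ℝ} (hL : ‖L‖ ≤ c) :
    |trH L| ≤ Module.finrank ℝ E * c :=
  (abs_tr_le L).trans (by gcongr)

/-- **Bulk 1**, estimate. -/
theorem bulk_one_le (h : FData p A B Gi K J P) (hm : trH P = trH p) (hA : ‖A‖ ≤ 1)
    (hGi : ‖Gi‖ ≤ 1) (hK : ‖K‖ ≤ 2) {b : ℝ} (hB : ‖B‖ ≤ b) (hmin : trH (Gi * B) = 0) :
    |trH (((1 + A - star A - B) - (p + A)) * J * P) - eS trH p A Gi P|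
      ≤ 8 * b * eS trH p A Gi P + 2 * Module.finrank ℝ E * b ^ 2 := by
  have hb : 0 ≤ b := (norm_nonneg B).trans hB
  rw [h.bulk_one trH trH_comm hm, hmin, sub_zero]
  have h1 : ‖K * B * Gi‖ ≤ 2 * b := by
    calc ‖K * B * Gi‖ ≤ ‖K * B‖ * ‖Gi‖ := norm_mul_le _ _
      _ ≤ (‖K‖ * ‖B‖) * ‖Gi‖ := by gcongr; exact norm_mul_le _ _
      _ ≤ (2 * b) * 1 := by gcongr
      _ = _ := mul_one _
  have h2 : ‖K * B * Gi * B‖ ≤ 2 * b ^ 2 := by
    calc ‖K * B * Gi * B‖ ≤ ‖K * B * Gi‖ * ‖B‖ := norm_mul_le _ _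
      _ ≤ (2 * b) * b := by gcongr
      _ = _ := by ring
  calc |trH (K * B * Gi * dZ p A P) - trH (K * B * Gi * B)|
      ≤ |trH (K * B * Gi * dZ p A P)| + |trH (K * B * Gi * B)| := abs_sub _ _
    _ ≤ 4 * (2 * b) * eS trH p A Gi P + Module.finrank ℝ E * (2 * b ^ 2) :=
        add_le_add (abs_tr_Z_le h hm hA _ h1) (abs_trH_le _ h2)
    _ = _ := by ring

/-- **Bulk 2**, estimate. -/
theorem bulk_two_le (h : FData p A B Gi K J P) (hm : trH P = trH p) {a b c f d : ℝ}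
    (hA : ‖A‖ ≤ a) (ha : a ≤ 1) (hGi : ‖Gi‖ ≤ 1) (hK : ‖K‖ ≤ 2) (hB : ‖B‖ ≤ b) (hb : b ≤ 1 / 2)
    {Bt C F : E →L[ℝ] E} (hBp : Bt * p = Bt) (hpB : p * Bt = Bt)
    (hCp : C * p = C) (hpC : p * C = 0) (hFp : F * p = F) (hpF : p * F = F)
    (hBt : ‖Bt - p‖ ≤ d) (hd : d ≤ 1) (hC : ‖C‖ ≤ c) (hF : ‖F‖ ≤ f)
    (hmin : trH (Gi * F) = trH (Gi * (star C * A + star A * C) * Gi * B)) :
    |trH (((1 + A - star A - B) * Bt + C - star C - F) * J * P)
        - (trH Bt + trH (Gi * star A * C) - eS trH p A Gi P)|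
      ≤ (16 * b + 12 * d + 2 * c + 8 * f) * eS trH p A Gi P
        + √(Module.finrank ℝ E) * (8 * a * b + 8 * c * b + 4 * a * f) * √(eS trH p A Gi P)
        + Module.finrank ℝ E * (4 * b ^ 2 * a * c + 2 * f * b) := by
  have ha0 : 0 ≤ a := (norm_nonneg A).trans hA
  have hb0 : 0 ≤ b := (norm_nonneg B).trans hB
  have hc0 : 0 ≤ c := (norm_nonneg C).trans hC
  have hf0 : 0 ≤ f := (norm_nonneg F).trans hF
  have hd0 : 0 ≤ d := (norm_nonneg _).trans hBt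
  have hA1 : ‖A‖ ≤ 1 := hA.trans ha
  have hsA : ‖star A‖ ≤ a := by rw [norm_star_eq]; exact hA
  have hsC : ‖star C‖ ≤ c := by rw [norm_star_eq]; exact hC
  have hp := norm_p_le h
  have h2 : ‖Bt‖ ≤ 2 := by
    calc ‖Bt‖ = ‖(Bt - p) + p‖ := by congr 1; abel
      _ ≤ ‖Bt - p‖ + ‖p‖ := norm_add_le _ _
      _ ≤ 2 := by linarith
  have hM : ‖K * B * Gi‖ ≤ 2 * b := by
    calc ‖K * B * Gi‖ ≤ ‖K * B‖ * ‖Gi‖ := norm_mul_le _ _
      _ ≤ (‖K‖ * ‖B‖) * ‖Gi‖ := by gcongr; exact norm_mul_le _ _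
      _ ≤ (2 * b) * 1 := by gcongr
      _ = _ := mul_one _
  -- the first term
  have hT1 : |trH ((Gi - (1 - B) * Bt * K) * dZ p A P)|
      ≤ 4 * (4 * b + 3 * d) * eS trH p A Gi P := by
    have e1 : (Gi - (1 - B) * Bt * K) * dZ p A P
        = (Gi * p - (1 - B) * Bt * (K * p)) * dZ p A P := by
      have : p * dZ p A P = dZ p A P := by
        unfold dZ
        calc p * ((p + star A) * (1 - P) * (p + A))
            = (p * p + p * star A) * (1 - P) * (p + A) := by noncomm_ring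
          _ = _ := by rw [h.pp, h.psA]
      calc (Gi - (1 - B) * Bt * K) * dZ p A P
          = (Gi - (1 - B) * Bt * K) * (p * dZ p A P) := by rw [this]
        _ = _ := by noncomm_ring
    rw [e1]
    refine abs_tr_Z_le h hm hA1 _ ?_
    have e2 : Gi * p - (1 - B) * Bt * (K * p)
        = -(K * B * Gi) * p + B * (p * (K * p)) - (1 - B) * (Bt - p) * (K * p) := by
      have e3 : Gi = K - K * B * Gi := eq_sub_of_add_eq h.K_eq.symm
      have e4 : Gi * p = K * p - K * B * Gi * p := by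
        conv_lhs => rw [e3]
        rw [sub_mul]
      rw [e4]
      have e5 : K * p = p * (K * p) := by rw [h.Kp, ← mul_assoc, h.pp]
      have e6 : (1 - B) * Bt * (K * p)
          = (1 - B) * (Bt - p) * (K * p) + p * (K * p) - B * (p * (K * p)) := by noncomm_ring
      rw [e6, ← e5]
      noncomm_ring
    rw [e2]
    have n1 : ‖K * p‖ ≤ 2 := by
      calc ‖K * p‖ ≤ ‖K‖ * ‖p‖ := norm_mul_le _ _
        _ ≤ 2 * 1 := by gcongr
        _ = 2 := by norm_num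
    have n2 : ‖p * (K * p)‖ ≤ 2 := by
      calc ‖p * (K * p)‖ ≤ ‖p‖ * ‖K * p‖ := norm_mul_le _ _
        _ ≤ 1 * 2 := by gcongr
        _ = 2 := by norm_num
    have n3 : ‖(1 - B : E →L[ℝ] E)‖ ≤ 3 / 2 := by
      calc ‖(1 - B : E →L[ℝ] E)‖ ≤ ‖(1 : E →L[ℝ] E)‖ + ‖B‖ := norm_sub_le _ _
        _ ≤ 1 + 1 / 2 := by
            gcongr
            · exact ContinuousLinearMap.norm_id_le
            · exact hB.trans hb
        _ = _ := by norm_num
    have n4 : ‖(1 - B) * (Bt - p) * (K * p)‖ ≤ 3 * d := by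
      calc ‖(1 - B) * (Bt - p) * (K * p)‖ ≤ ‖(1 - B) * (Bt - p)‖ * ‖K * p‖ := norm_mul_le _ _
        _ ≤ (‖(1 - B : E →L[ℝ] E)‖ * ‖Bt - p‖) * ‖K * p‖ := by gcongr; exact norm_mul_le _ _
        _ ≤ (3 / 2 * d) * 2 := by gcongr
        _ = _ := by ring
    have n5 : ‖-(K * B * Gi) * p‖ ≤ 2 * b := by
      calc ‖-(K * B * Gi) * p‖ ≤ ‖-(K * B * Gi)‖ * ‖p‖ := norm_mul_le _ _
        _ ≤ (2 * b) * 1 := by rw [norm_neg]; gcongr
        _ = _ := mul_one _
    have n6 : ‖B * (p * (K * p))‖ ≤ 2 * b := by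
      calc ‖B * (p * (K * p))‖ ≤ ‖B‖ * ‖p * (K * p)‖ := norm_mul_le _ _
        _ ≤ b * 2 := by gcongr
        _ = _ := by ring
    calc _ ≤ ‖-(K * B * Gi) * p + B * (p * (K * p))‖ + ‖(1 - B) * (Bt - p) * (K * p)‖ :=
          norm_sub_le _ _
      _ ≤ (‖-(K * B * Gi) * p‖ + ‖B * (p * (K * p))‖) + ‖(1 - B) * (Bt - p) * (K * p)‖ := by
          gcongr; exact norm_add_le _ _
      _ ≤ (2 * b + 2 * b) + 3 * d := by gcongr
      _ = _ := by ring
  have hT2 : |trH (B * Bt * K * dN p A P * A)|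
      ≤ 2 * √(Module.finrank ℝ E) * (4 * a * b) * √(eS trH p A Gi P) := by
    have e1 : trH (B * Bt * K * dN p A P * A) = trH ((A * (B * Bt * K)) * dN p A P) := by
      rw [trH_comm]; simp only [mul_assoc]
    rw [e1]
    refine abs_tr_N_le h hm hA1 _ ?_
    calc ‖A * (B * Bt * K)‖ ≤ ‖A‖ * ‖B * Bt * K‖ := norm_mul_le _ _
      _ ≤ ‖A‖ * (‖B * Bt‖ * ‖K‖) := by gcongr; exact norm_mul_le _ _
      _ ≤ ‖A‖ * ((‖B‖ * ‖Bt‖) * ‖K‖) := by gcongr; exact norm_mul_le _ _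
      _ ≤ a * ((b * 2) * 2) := by gcongr
      _ = _ := by ring
  have hT3 : |trH (C * ((P - proj p A Gi) * (P - proj p A Gi)))|
      ≤ 2 * c * eS trH p A Gi P := by
    have e1 : star (P - proj p A Gi) = P - proj p A Gi := by
      rw [star_sub, h.Ps, h.star_proj]
    have e2 := abs_tr_mul_le C (P - proj p A Gi)
    rw [e1, hs_sub_proj h hm] at e2
    calc _ ≤ ‖C‖ * (2 * eS trH p A Gi P) := e2
      _ ≤ c * (2 * eS trH p A Gi P) := by
          have := eS_nonneg h hm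
          gcongr
      _ = _ := by ring
  have hT4 : |trH ((C + star C * A) * (K * B * Gi) * dN p A P)|
      ≤ 2 * √(Module.finrank ℝ E) * (4 * c * b) * √(eS trH p A Gi P) := by
    refine abs_tr_N_le h hm hA1 _ ?_
    calc ‖(C + star C * A) * (K * B * Gi)‖ ≤ ‖C + star C * A‖ * ‖K * B * Gi‖ := norm_mul_le _ _
      _ ≤ (‖C‖ + ‖star C * A‖) * ‖K * B * Gi‖ := by gcongr; exact norm_add_le _ _
      _ ≤ (‖C‖ + ‖star C‖ * ‖A‖) * ‖K * B * Gi‖ := by gcongr; exact norm_mul_le _ _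
      _ ≤ (c + c * 1) * (2 * b) := by gcongr
      _ = _ := by ring
  have hT5 : |trH (F * K * dZ p A P)| ≤ 4 * (2 * f) * eS trH p A Gi P := by
    refine abs_tr_Z_le h hm hA1 _ ?_
    calc ‖F * K‖ ≤ ‖F‖ * ‖K‖ := norm_mul_le _ _
      _ ≤ f * 2 := by gcongr
      _ = _ := by ring
  have hT6 : |trH (F * K * dN p A P * A)|
      ≤ 2 * √(Module.finrank ℝ E) * (2 * a * f) * √(eS trH p A Gi P) := by
    have e1 : trH (F * K * dN p A P * A) = trH ((A * (F * K)) * dN p A P) := by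
      rw [trH_comm]; simp only [mul_assoc]
    rw [e1]
    refine abs_tr_N_le h hm hA1 _ ?_
    calc ‖A * (F * K)‖ ≤ ‖A‖ * ‖F * K‖ := norm_mul_le _ _
      _ ≤ ‖A‖ * (‖F‖ * ‖K‖) := by gcongr; exact norm_mul_le _ _
      _ ≤ a * (f * 2) := by gcongr
      _ = _ := by ring
  have hT7 : |trH (K * B * Gi * B * Gi * (star A * C + star C * A))|
      ≤ Module.finrank ℝ E * (4 * b ^ 2 * a * c) := by
    refine abs_trH_le _ ?_
    have n1 : ‖star A * C + star C * A‖ ≤ 2 * a * c := by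
      calc ‖star A * C + star C * A‖ ≤ ‖star A * C‖ + ‖star C * A‖ := norm_add_le _ _
        _ ≤ ‖star A‖ * ‖C‖ + ‖star C‖ * ‖A‖ := add_le_add (norm_mul_le _ _) (norm_mul_le _ _)
        _ ≤ a * c + c * a := by gcongr
        _ = _ := by ring
    calc ‖K * B * Gi * B * Gi * (star A * C + star C * A)‖
        ≤ ‖K * B * Gi * B * Gi‖ * ‖star A * C + star C * A‖ := norm_mul_le _ _
      _ ≤ (‖K * B * Gi * B‖ * ‖Gi‖) * ‖star A * C + star C * A‖ := by
          gcongr; exact norm_mul_le _ _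
      _ ≤ ((‖K * B * Gi‖ * ‖B‖) * ‖Gi‖) * ‖star A * C + star C * A‖ := by
          gcongr; exact norm_mul_le _ _
      _ ≤ (((2 * b) * b) * 1) * (2 * a * c) := by gcongr
      _ = _ := by ring
  have hT8 : |trH (F * (K * B * Gi))| ≤ Module.finrank ℝ E * (2 * f * b) := by
    refine abs_trH_le _ ?_
    calc ‖F * (K * B * Gi)‖ ≤ ‖F‖ * ‖K * B * Gi‖ := norm_mul_le _ _
      _ ≤ f * (2 * b) := by gcongr
      _ = _ := by ring
  rw [h.bulk_two trH trH_comm hm trH_star hBp hpB hCp hpC hFp hpF hmin]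
  rw [abs_le] at hT1 hT2 hT3 hT4 hT5 hT6 hT7 hT8 ⊢
  constructor <;> linarith [hT1.1, hT1.2, hT2.1, hT2.2, hT3.1, hT3.2, hT4.1, hT4.2, hT5.1,
    hT5.2, hT6.1, hT6.2, hT7.1, hT7.2, hT8.1, hT8.2]

end est

end Vale.Agent.P214.ODEF
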