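import Vale.Agent.P214.ODEF.BulkF

/-!
# P214, block ODEF: the gradient field of the extrinsic distance

`ft z Y = p (Y - z) + (w Y - w z)` position of the foot point; `cRm` = differential of `|ft|²/2` in
`T`; `gmF = G⁻¹ cRm` = its gradient on the graph.  `D gmF = p + G⁻¹ Hw(..) - G⁻¹ A^* D²w(gmF)`, so
its divergence on a minimal graph is exactly `m`.
-/

open Set Filter Topology MeasureTheory Metric
open scoped RealInnerProductSpace ContDiff

set_option linter.all false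

namespace Vale.Agent.P214.ODEF

open FV FM

variable {E : Type*} [NormedAddCommGroup E] [InnerProductSpace ℝ E] [FiniteDimensional ℝ E]

/-- position of the foot point relative to the centre -/
noncomputable def ft (T : Submodule ℝ E) (w : E → E) (z Y : E) : E :=
  T.starProjection (Y - z) + (w Y - w z)

/-- differential of `|ft|²/2` -/
noncomputable def cRm (T : Submodule ℝ E) (w : E → E) (z Y : E) : E :=
  T.starProjection (Y - z) + adj (fderiv ℝ w Y) (w Y - w z)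

/-- gradient of `|ft|²/2` on the graph -/
noncomputable def gmF (T : Submodule ℝ E) (w : E → E) (z Y : E) : E :=
  Gi (fderiv ℝ w Y) (cRm T w z Y)

variable {T : Submodule ℝ E} {w : E → E} {ε κ h₁ : ℝ} {z Y : E}

lemma mul_apply' (A B : E →L[ℝ] E) (v : E) : (A * B) v = A (B v) := rfl

lemma Gi_G (A : E →L[ℝ] E) : Gi A * (1 + star A * A) = 1 :=
  Ring.inverse_mul_cancel _ (isUnit_of_coercive _ one_pos (coercive_G _))

lemma G_Gi (A : E →L[ℝ] E) : (1 + star A * A) * Gi A = 1 :=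
  Ring.mul_inverse_cancel _ (isUnit_of_coercive _ one_pos (coercive_G _))

lemma star_Gi (A : E →L[ℝ] E) : star (Gi A) = Gi A := by
  have h1 : (1 + star A * A) * star (Gi A) = 1 := by
    have := congrArg star (Gi_G A)
    simpa using this
  calc star (Gi A) = (Gi A * (1 + star A * A)) * star (Gi A) := by rw [Gi_G, one_mul]
    _ = Gi A * ((1 + star A * A) * star (Gi A)) := mul_assoc _ _ _
    _ = Gi A := by rw [h1, mul_one]

lemma inner_Gi (A : E →L[ℝ] E) (u v : E) : ⟪Gi A u, v⟫ = ⟪u, Gi A v⟫ := by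
  have := star_Gi A
  rw [star_def] at this
  conv_rhs => rw [← this]
  rw [inner_adj_right]

lemma norm_Gi_apply_le (A : E →L[ℝ] E) (v : E) : ‖Gi A v‖ ≤ ‖v‖ := by
  calc ‖Gi A v‖ ≤ ‖Gi A‖ * ‖v‖ := (Gi A).le_opNorm v
    _ ≤ 1 * ‖v‖ := by gcongr; exact norm_Gi_le A
    _ = ‖v‖ := one_mul _

section base

variable (H : Adm T w ε κ h₁)
include H

lemma fdata0 (Y : E) : FData T.starProjection (fderiv ℝ w Y) 0 (Gi (fderiv ℝ w Y))
    (Ki (fderiv ℝ w Y) 0) (Jm T w h₁ (T.starProjection Y)) (⊤ : Submodule ℝ E).starProjection := by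
  have h0 := fdata H (Y := T.starProjection Y)
    (by rw [co_star, norm_zero]; exact H.hpos) ⊤
  have hAA : fderiv ℝ w (T.starProjection Y) = fderiv ℝ w Y := H.ref.fderiv_base Y
  have hB0 : Hw w (T.starProjection Y) (co T (T.starProjection Y)) = 0 := by
    rw [co_star]; ext v; simp [Hw_apply]
  rw [hAA, hB0] at h0
  exact h0

lemma star_Gi_apply (Y v : E) : T.starProjection (Gi (fderiv ℝ w Y) v)
    = Gi (fderiv ℝ w Y) (T.starProjection v) := by
  have := (fdata0 H Y).Gip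
  exact congrArg (fun L : E →L[ℝ] E => L v) this.symm

lemma star_cRm (z Y : E) : T.starProjection (cRm T w z Y) = cRm T w z Y := by
  unfold cRm
  rw [map_add, star_self, H.ref.star_adj_fderiv]

lemma star_gmF (z Y : E) : T.starProjection (gmF T w z Y) = gmF T w z Y := by
  unfold gmF
  rw [star_Gi_apply H, star_cRm H]

lemma cRm_base (z Y : E) : cRm T w z (T.starProjection Y) = cRm T w z Y := by
  unfold cRm
  have h1 : T.starProjection (T.starProjection Y - z) = T.starProjection (Y - z) := by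
    rw [map_sub, map_sub, star_self]
  rw [H.ref.fderiv_base, H.ref.base, h1]

lemma gmF_base (z Y : E) : gmF T w z (T.starProjection Y) = gmF T w z Y := by
  unfold gmF
  rw [H.ref.fderiv_base, cRm_base H]

/-- `G gm = cR` -/
lemma G_gmF (z Y : E) : gmF T w z Y + adj (fderiv ℝ w Y) (fderiv ℝ w Y (gmF T w z Y))
    = cRm T w z Y :=
  congrArg (fun L : E →L[ℝ] E => L (cRm T w z Y)) (G_Gi (fderiv ℝ w Y))

/-- `PS ft = gm + A gm` -/
lemma PS_ft (z Y : E) : PS T w Y (ft T w z Y)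
    = gmF T w z Y + fderiv ℝ w Y (gmF T w z Y) := by
  have hPS := proj_eq_PS H (Y := T.starProjection Y)
    (by rw [co_star, norm_zero]; exact H.hpos)
  rw [H.ref.PS_base, H.ref.fderiv_base] at hPS
  rw [← hPS]
  have h1 : (T.starProjection + star (fderiv ℝ w Y)) (ft T w z Y) = cRm T w z Y := by
    show T.starProjection (ft T w z Y) + adj (fderiv ℝ w Y) (ft T w z Y) = _
    unfold ft cRm
    rw [map_add, star_self, map_sub T.starProjection (w Y), H.ref.perp, H.ref.perp, sub_zero,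
      add_zero, map_add, H.ref.adj_fderiv_star, zero_add]
  show (T.starProjection + fderiv ℝ w Y) (Gi (fderiv ℝ w Y)
    ((T.starProjection + star (fderiv ℝ w Y)) (ft T w z Y))) = _
  rw [h1]
  show T.starProjection (gmF T w z Y) + fderiv ℝ w Y (gmF T w z Y) = _
  rw [star_gmF H]

lemma norm_bx_le_ft (z Y : E) : ‖T.starProjection (Y - z)‖ ≤ ‖ft T w z Y‖ := by
  have h1 : T.starProjection (ft T w z Y) = T.starProjection (Y - z) := by
    unfold ft
    rw [map_add, star_self, map_sub T.starProjection (w Y), H.ref.perp, H.ref.perp, sub_zero,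
      add_zero]
  rw [← h1]; exact norm_star_le T _

lemma norm_w_sub_le (z Y : E) : ‖w Y - w z‖ ≤ ε * ‖T.starProjection (Y - z)‖ := by
  rw [← H.ref.base Y, ← H.ref.base z, map_sub]
  exact (convex_univ (𝕜 := ℝ) (E := E)).norm_image_sub_le_of_norm_hasFDerivWithin_le
    (f := w) (f' := fderiv ℝ w) (C := ε) (fun z _ => (H.ref.diff z).hasFDerivAt.hasFDerivWithinAt)
    (fun z _ => H.ref.slope z) (mem_univ (T.starProjection z)) (mem_univ (T.starProjection Y))

lemma norm_ft_le (z Y : E) : ‖ft T w z Y‖ ≤ (1 + ε) * ‖T.starProjection (Y - z)‖ := by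
  unfold ft
  calc _ ≤ ‖T.starProjection (Y - z)‖ + ‖w Y - w z‖ := norm_add_le _ _
    _ ≤ ‖T.starProjection (Y - z)‖ + ε * ‖T.starProjection (Y - z)‖ := by
        gcongr; exact norm_w_sub_le H z Y
    _ = _ := by ring

lemma norm_gmF_le_ft (z Y : E) : ‖gmF T w z Y‖ ≤ ‖ft T w z Y‖ := by
  have h1 : T.starProjection (PS T w Y (ft T w z Y)) = gmF T w z Y := by
    rw [PS_ft H, map_add, star_gmF H, H.ref.star_fderiv, add_zero]
  rw [← h1]
  refine (norm_star_le T _).trans ?_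
  unfold PS
  exact norm_star_le _ _

lemma eps_le : ε ≤ 1 / 16 := H.hε.trans eps0_le

lemma norm_gmF_le (z Y : E) : ‖gmF T w z Y‖ ≤ (1 + ε) * ‖T.starProjection (Y - z)‖ :=
  (norm_gmF_le_ft H z Y).trans (norm_ft_le H z Y)

lemma norm_cRm_le (z Y : E) : ‖cRm T w z Y‖ ≤ (1 + ε) * ‖ft T w z Y‖ := by
  have h1 : cRm T w z Y = T.starProjection (ft T w z Y) + adj (fderiv ℝ w Y) (ft T w z Y) := by
    unfold ft cRm
    rw [map_add, star_self, map_sub T.starProjection (w Y), H.ref.perp, H.ref.perp, sub_zero,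
      add_zero, map_add, H.ref.adj_fderiv_star, zero_add]
  rw [h1]
  calc _ ≤ ‖T.starProjection (ft T w z Y)‖ + ‖adj (fderiv ℝ w Y) (ft T w z Y)‖ := norm_add_le _ _
    _ ≤ ‖ft T w z Y‖ + ε * ‖ft T w z Y‖ := by
        gcongr
        · exact norm_star_le T _
        · exact H.ref.norm_adj_fderiv_apply_le _ _
    _ = _ := by ring

/-- second order expansion of `w` -/
lemma norm_taylor_le (z Y : E) :
    ‖w Y - w z - fderiv ℝ w Y (T.starProjection (Y - z))‖
      ≤ κ * ‖T.starProjection (Y - z)‖ ^ 2 := by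
  have hw := H.ref
  have h1 := hw.knn
  set a := T.starProjection z with ha
  set c := T.starProjection Y with hc
  have hbx : T.starProjection (Y - z) = c - a := by rw [map_sub]
  have h2 : ∀ x ∈ segment ℝ a c, HasFDerivWithinAt (fun x => w x - fderiv ℝ w Y x)
      (fderiv ℝ w x - fderiv ℝ w Y) (segment ℝ a c) x := fun x _ =>
    ((hw.diff x).hasFDerivAt.sub (fderiv ℝ w Y).hasFDerivAt).hasFDerivWithinAt
  have h3 : ∀ x ∈ segment ℝ a c, ‖fderiv ℝ w x - fderiv ℝ w Y‖ ≤ κ * ‖c - a‖ := by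
    intro x hx
    rw [← hw.fderiv_base Y]
    have h4 := (convex_univ (𝕜 := ℝ) (E := E)).norm_image_sub_le_of_norm_hasFDerivWithin_le
      (f := fderiv ℝ w) (f' := D2 w) (C := κ)
      (fun z _ => (hw.diff1 z).hasFDerivAt.hasFDerivWithinAt)
      (fun z _ => hw.norm_D2_le z) (mem_univ c) (mem_univ x)
    refine h4.trans ?_
    gcongr
    obtain ⟨s, t, hs, ht, hst, rfl⟩ := hx
    have : s • a + t • c - c = s • (a - c) := by
      have : t = 1 - s := by linarith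
      rw [this]; module
    rw [this, norm_smul, Real.norm_eq_abs, abs_of_nonneg hs, norm_sub_rev a c]
    calc s * ‖c - a‖ ≤ 1 * ‖c - a‖ := by gcongr; linarith
      _ = _ := one_mul _
  have h5 := (convex_segment (𝕜 := ℝ) a c).norm_image_sub_le_of_norm_hasFDerivWithin_le h2 h3
    (left_mem_segment ℝ a c) (right_mem_segment ℝ a c)
  have e1 : w Y - w z - fderiv ℝ w Y (T.starProjection (Y - z))
      = w c - fderiv ℝ w Y c - (w a - fderiv ℝ w Y a) := by
    rw [hbx, map_sub, hc, ha, hw.base, hw.base]; abel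
  rw [e1]
  calc _ ≤ κ * ‖c - a‖ * ‖c - a‖ := h5
    _ = _ := by rw [hbx]; ring

/-- the normal part of the position vector is quadratic -/
lemma norm_ft_sub_PS_le (z Y : E) :
    ‖ft T w z Y - PS T w Y (ft T w z Y)‖ ≤ κ * ‖T.starProjection (Y - z)‖ ^ 2 := by
  have hw := H.ref
  set x := T.starProjection (Y - z) with hx
  have hxT : T.starProjection x = x := star_self T _
  have h1 : PS T w Y (x + fderiv ℝ w Y x) = x + fderiv ℝ w Y x := by
    have := hw.PS_D0 Y x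
    rw [hxT] at this
    have h2 : D0 w Y x = x + fderiv ℝ w Y x := by
      rw [D0_apply]
      have : adj (fderiv ℝ w Y) x = 0 := by rw [← hxT, hw.adj_fderiv_star]
      rw [this, sub_zero]
    rwa [h2] at this
  have h2 : ft T w z Y - PS T w Y (ft T w z Y)
      = (w Y - w z - fderiv ℝ w Y x) - PS T w Y (w Y - w z - fderiv ℝ w Y x) := by
    have h3 : ft T w z Y = (x + fderiv ℝ w Y x) + (w Y - w z - fderiv ℝ w Y x) := by
      unfold ft; rw [← hx]; abel
    rw [h3, map_add, h1]; abel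
  rw [h2]
  refine le_trans ?_ (norm_taylor_le H z Y)
  exact norm_co_le (planeOf T w Y) _

end base

/-! ### differentials -/

/-- derivative of `G⁻¹` -/
lemma exists_hasFDerivAt_Gi (H : Adm T w ε κ h₁) (Y : E) :
    ∃ L : E →L[ℝ] (E →L[ℝ] E), HasFDerivAt (fun y => Gi (fderiv ℝ w y)) L Y ∧
      ∀ v, L v = -(Gi (fderiv ℝ w Y) * (star (fderiv ℝ w Y) * D2 w Y v
          + star (D2 w Y v) * fderiv ℝ w Y) * Gi (fderiv ℝ w Y)) := by
  have hw := H.ref
  have h1 : HasFDerivAt (fun y => adj (fderiv ℝ w y)) (adj.comp (D2 w Y)) Y :=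
    ((adj (E := E)).hasFDerivAt (x := fderiv ℝ w Y)).comp Y (hw.diff1 Y).hasFDerivAt
  have h2 : HasFDerivAt (fun y => (adj (fderiv ℝ w y)).comp (fderiv ℝ w y)) _ Y :=
    h1.clm_comp (hw.diff1 Y).hasFDerivAt
  have h3 : HasFDerivAt (fun y => 1 + star (fderiv ℝ w y) * fderiv ℝ w y) _ Y := h2.const_add 1
  have hu : IsUnit (1 + star (fderiv ℝ w Y) * fderiv ℝ w Y) :=
    isUnit_of_coercive _ one_pos (coercive_G _)
  have h4 := hasFDerivAt_ringInverse (𝕜 := ℝ) hu.unit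
  have hval : (hu.unit : E →L[ℝ] E) = 1 + star (fderiv ℝ w Y) * fderiv ℝ w Y := rfl
  rw [hval] at h4
  have hinv : ((hu.unit⁻¹ : (E →L[ℝ] E)ˣ) : E →L[ℝ] E) = Gi (fderiv ℝ w Y) := by
    unfold Gi
    exact (Ring.inverse_unit hu.unit).symm
  rw [hinv] at h4
  exact ⟨_, h4.comp Y h3, fun v => rfl⟩

/-- derivative of `cRm` -/
lemma hasFDerivAt_cRm (hw : Ref T w ε κ) (z Y : E) :
    HasFDerivAt (cRm T w z) (T.starProjection + adj (fderiv ℝ w Y) * fderiv ℝ w Y
      + Hw w Y (w Y - w z)) Y := by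
  have h1 : HasFDerivAt (fun Y => adj (fderiv ℝ w Y)) (adj.comp (D2 w Y)) Y :=
    ((adj (E := E)).hasFDerivAt (x := fderiv ℝ w Y)).comp Y (hw.diff1 Y).hasFDerivAt
  have h2 : HasFDerivAt (fun Y => w Y - w z) (fderiv ℝ w Y) Y :=
    (hw.diff Y).hasFDerivAt.sub_const _
  have h3 : HasFDerivAt (fun Y : E => T.starProjection (Y - z)) T.starProjection Y := by
    have h := (T.starProjection.hasFDerivAt (x := Y - z)).comp Y
      ((hasFDerivAt_id Y).sub_const z)
    rwa [ContinuousLinearMap.comp_id] at h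
  have h4 := h3.add (h1.clm_apply h2)
  refine h4.congr_fderiv ?_
  ext v
  simp only [ContinuousLinearMap.add_apply, ContinuousLinearMap.comp_apply,
    ContinuousLinearMap.flip_apply, Hw_apply, mul_apply']
  abel

/-- the differential of the gradient field -/
noncomputable def dgm (T : Submodule ℝ E) (w : E → E) (z Y : E) : E →L[ℝ] E :=
  T.starProjection + Gi (fderiv ℝ w Y) * Hw w Y (w Y - w z - fderiv ℝ w Y (gmF T w z Y))
    - Gi (fderiv ℝ w Y) * adj (fderiv ℝ w Y) * D2 w Y (gmF T w z Y)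

lemma hasFDerivAt_gmF (H : Adm T w ε κ h₁) (z Y : E) :
    HasFDerivAt (gmF T w z) (dgm T w z Y) Y := by
  obtain ⟨L, hL, hLv⟩ := exists_hasFDerivAt_Gi H Y
  have hw := H.ref
  have h1 := hL.clm_apply (hasFDerivAt_cRm hw z Y)
  refine h1.congr_fderiv ?_
  ext v
  have e1 : Gi (fderiv ℝ w Y) (T.starProjection v + adj (fderiv ℝ w Y) (fderiv ℝ w Y v))
      = T.starProjection v := by
    have a1 := congrArg (fun M : E →L[ℝ] E => M (T.starProjection v)) (Gi_G (fderiv ℝ w Y))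
    have a2 : (Gi (fderiv ℝ w Y) * (1 + star (fderiv ℝ w Y) * fderiv ℝ w Y))
        (T.starProjection v) = Gi (fderiv ℝ w Y) (T.starProjection v
          + adj (fderiv ℝ w Y) (fderiv ℝ w Y (T.starProjection v))) := rfl
    rw [hw.fderiv_star] at a2
    rw [← a2]
    exact a1
  have e2 : L v (cRm T w z Y) = -(Gi (fderiv ℝ w Y) (adj (fderiv ℝ w Y)
      (D2 w Y v (gmF T w z Y)) + adj (D2 w Y v) (fderiv ℝ w Y (gmF T w z Y)))) := by
    rw [hLv]; rfl
  have e3 : D2 w Y v (gmF T w z Y) = D2 w Y (gmF T w z Y) v := hw.D2_symm _ _ _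
  have e4 : Hw w Y (w Y - w z - fderiv ℝ w Y (gmF T w z Y)) v
      = Hw w Y (w Y - w z) v - adj (D2 w Y v) (fderiv ℝ w Y (gmF T w z Y)) := by
    rw [Hw_apply, Hw_apply, map_sub (adj (D2 w Y v))]
  simp only [ContinuousLinearMap.add_apply, ContinuousLinearMap.sub_apply,
    ContinuousLinearMap.comp_apply, ContinuousLinearMap.flip_apply, dgm, mul_apply', e2, e3, e4,
    map_add, map_sub]
  rw [map_add] at e1
  rw [e1]
  abel

lemma dgm_star (H : Adm T w ε κ h₁) (z Y : E) : dgm T w z Y * T.starProjection = dgm T w z Y :=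
  base_deriv_star (hasFDerivAt_gmF H z Y) (gmF_base H z)

lemma star_dgm (H : Adm T w ε κ h₁) (z Y : E) : T.starProjection * dgm T w z Y = dgm T w z Y :=
  star_base_deriv (hasFDerivAt_gmF H z Y) (star_gmF H z)

/-- **the divergence of the gradient field is exactly `m`** -/
theorem divg_gmF (H : Adm T w ε κ h₁) (z Y : E) (hmin : lap w (PS T w Y) Y = 0) :
    divg w Y (gmF T w z Y) (dgm T w z Y) = Module.finrank ℝ T := by
  have h1 : trH (Gi (fderiv ℝ w Y) * Hw w Y (w Y - w z - fderiv ℝ w Y (gmF T w z Y))) = 0 := by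
    rw [tr_Gi_Hw H, hmin, inner_zero_right]
  have h2 : divg w Y (gmF T w z Y) (dgm T w z Y)
      = trH (dgm T w z Y) + trH (Gi (fderiv ℝ w Y) * adj (fderiv ℝ w Y)
          * D2 w Y (gmF T w z Y)) := rfl
  rw [h2]
  unfold dgm
  rw [map_sub, map_add, h1, trH_starProjection]
  ring

lemma norm_dgm_sub_le (H : Adm T w ε κ h₁) (z Y : E) :
    ‖dgm T w z Y - T.starProjection‖ ≤ κ * ‖T.starProjection (Y - z)‖ := by
  have hw := H.ref
  have hk := hw.knn
  have he := eps_le H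
  have he0 := hw.eps_nonneg
  set ρ := ‖T.starProjection (Y - z)‖ with hρ
  have hρ0 : 0 ≤ ρ := norm_nonneg _
  have e1 : dgm T w z Y - T.starProjection
      = Gi (fderiv ℝ w Y) * Hw w Y (w Y - w z - fderiv ℝ w Y (gmF T w z Y))
        - Gi (fderiv ℝ w Y) * adj (fderiv ℝ w Y) * D2 w Y (gmF T w z Y) := by
    unfold dgm; abel
  have hg : ‖gmF T w z Y‖ ≤ (1 + ε) * ρ := norm_gmF_le H z Y
  have hgi := norm_Gi_le (fderiv ℝ w Y)
  have n1 : ‖w Y - w z - fderiv ℝ w Y (gmF T w z Y)‖ ≤ ε * ρ + ε * ((1 + ε) * ρ) := by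
    calc _ ≤ ‖w Y - w z‖ + ‖fderiv ℝ w Y (gmF T w z Y)‖ := norm_sub_le _ _
      _ ≤ ε * ρ + ε * ((1 + ε) * ρ) := by
          gcongr
          · exact norm_w_sub_le H z Y
          · exact (hw.norm_fderiv_apply_le Y _).trans (by gcongr)
  have n2 : ‖D2 w Y (gmF T w z Y)‖ ≤ κ * ((1 + ε) * ρ) :=
    ((D2 w Y).le_opNorm _).trans (by gcongr; exact hw.norm_D2_le Y)
  have n3 : ‖adj (fderiv ℝ w Y)‖ ≤ ε := by rw [norm_adj]; exact hw.slope Y
  rw [e1]
  calc _ ≤ ‖Gi (fderiv ℝ w Y) * Hw w Y (w Y - w z - fderiv ℝ w Y (gmF T w z Y))‖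
        + ‖Gi (fderiv ℝ w Y) * adj (fderiv ℝ w Y) * D2 w Y (gmF T w z Y)‖ := norm_sub_le _ _
    _ ≤ ‖Gi (fderiv ℝ w Y)‖ * ‖Hw w Y (w Y - w z - fderiv ℝ w Y (gmF T w z Y))‖
        + (‖Gi (fderiv ℝ w Y)‖ * ‖adj (fderiv ℝ w Y)‖) * ‖D2 w Y (gmF T w z Y)‖ := by
        refine add_le_add (norm_mul_le _ _) ((norm_mul_le _ _).trans ?_)
        gcongr
        exact norm_mul_le _ _
    _ ≤ 1 * (κ * (ε * ρ + ε * ((1 + ε) * ρ))) + (1 * ε) * (κ * ((1 + ε) * ρ)) := by
        gcongr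
        exact (hw.norm_Hw_le Y _).trans (by gcongr)
    _ = (κ * ρ) * (ε * (3 + 2 * ε)) := by ring
    _ ≤ (κ * ρ) * 1 := by gcongr; nlinarith
    _ = _ := mul_one _

/-- **bulk term of the gradient field** `xg = DΨ(gm)`: divergence exactly `m`. -/
theorem bulk_xg (H : Adm T w ε κ h₁) (z : E) (hY : ‖co T Y‖ < h₁) {G : Set E} (hG : IsOpen G)
    (hmin : MinimalOver T w G) (hYG : T.starProjection Y ∈ G) {S : Submodule ℝ E}
    (hS : Module.finrank ℝ S = Module.finrank ℝ T)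
    (hr : κ * ‖T.starProjection (Y - z)‖ ≤ 1) :
    |tr (((fderiv ℝ (zeF T w (gmF T w z)) Y).comp (Jm T w h₁ Y)).comp S.starProjection)
        - (Module.finrank ℝ T - FM.eS T w Y S.starProjection)|
      ≤ 16 * (κ * ‖co T Y‖ + κ * ‖T.starProjection (Y - z)‖) * FM.eS T w Y S.starProjection
        + √(Module.finrank ℝ E) * (κ * ‖co T Y‖ * (1 + 9 * (κ * ‖T.starProjection (Y - z)‖)))
            * √(FM.eS T w Y S.starProjection)
        + 3 * Module.finrank ℝ E * (κ * ‖co T Y‖) ^ 2 * (κ * ‖T.starProjection (Y - z)‖) := by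
  have hw := H.ref
  have hk := hw.knn
  have he := eps_le H
  have he0 := hw.eps_nonneg
  set ρ := ‖T.starProjection (Y - z)‖ with hρ
  have hρ0 : 0 ≤ ρ := norm_nonneg _
  set u := ‖co T Y‖ with hu
  have hu0 : 0 ≤ u := norm_nonneg _
  have key := bulk_ze (b := dgm T w z Y) H hY hG hmin hYG hS (hasFDerivAt_gmF H z Y)
    (gmF_base H z) (star_gmF H z) (norm_dgm_sub_le H z Y) hr
  rw [divg_gmF H z Y (hmin Y hYG)] at key
  refine key.trans ?_
  have hg : ‖gmF T w z Y‖ ≤ (17 / 16) * ρ := by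
    refine (norm_gmF_le H z Y).trans ?_
    rw [← hρ]
    gcongr
    linarith
  set g := ‖gmF T w z Y‖ with hgd
  have hg0 : 0 ≤ g := norm_nonneg _
  have hku : κ * u ≤ 1 / 16 := by
    calc κ * u ≤ κ * h₁ := by gcongr
      _ ≤ 1 / 16 := H.hκ
  have hku0 : 0 ≤ κ * u := by positivity
  have hkr0 : 0 ≤ κ * ρ := by positivity
  have heS : 0 ≤ FM.eS T w Y S.starProjection := tilt_nonneg S (planeOf T w Y)
  set e := FM.eS T w Y S.starProjection with hed
  have hse : 0 ≤ √e := Real.sqrt_nonneg _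
  have hkg : κ * g ≤ 17 / 16 * (κ * ρ) := by
    calc κ * g ≤ κ * (17 / 16 * ρ) := by gcongr
      _ = _ := by ring
  have hkg0 : 0 ≤ κ * g := by positivity
  have hn : (0:ℝ) ≤ Module.finrank ℝ E := Nat.cast_nonneg _
  have b1 : 16 * (κ * u) + 12 * (κ * ρ) + 2 * (κ * g) + 8 * (κ ^ 2 * u * g)
      ≤ 16 * (κ * u + κ * ρ) := by
    have : κ ^ 2 * u * g = (κ * u) * (κ * g) := by ring
    rw [this]
    nlinarith
  have b2 : 8 * ε * (κ * u) + 8 * (κ * g) * (κ * u) + 4 * ε * (κ ^ 2 * u * g)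
      ≤ κ * u * (1 + 9 * (κ * ρ)) := by
    have h1 : κ ^ 2 * u * g = (κ * u) * (κ * g) := by ring
    rw [h1]
    have h2 : 8 * ε ≤ 1 / 2 := by linarith
    have h3 : (8 + 4 * ε) * (κ * g) ≤ 9 * (κ * ρ) := by
      calc (8 + 4 * ε) * (κ * g) ≤ (8 + 4 * (1 / 16)) * (17 / 16 * (κ * ρ)) := by gcongr
        _ ≤ 9 * (κ * ρ) := by linarith
    calc 8 * ε * (κ * u) + 8 * (κ * g) * (κ * u) + 4 * ε * (κ * u * (κ * g))
        = (κ * u) * (8 * ε + (8 + 4 * ε) * (κ * g)) := by ring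
      _ ≤ (κ * u) * (1 + 9 * (κ * ρ)) := by gcongr; linarith
  have b3 : 4 * (κ * u) ^ 2 * ε * (κ * g) + 2 * (κ ^ 2 * u * g) * (κ * u)
      ≤ 3 * (κ * u) ^ 2 * (κ * ρ) := by
    have h1 : 4 * (κ * u) ^ 2 * ε * (κ * g) + 2 * (κ ^ 2 * u * g) * (κ * u)
        = (κ * u) ^ 2 * ((4 * ε + 2) * (κ * g)) := by ring
    rw [h1]
    have h3 : (4 * ε + 2) * (κ * g) ≤ 3 * (κ * ρ) := by
      calc (4 * ε + 2) * (κ * g) ≤ (4 * (1 / 16) + 2) * (17 / 16 * (κ * ρ)) := by gcongr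
        _ ≤ 3 * (κ * ρ) := by linarith
    calc (κ * u) ^ 2 * ((4 * ε + 2) * (κ * g)) ≤ (κ * u) ^ 2 * (3 * (κ * ρ)) := by gcongr
      _ = _ := by ring
  calc (16 * (κ * u) + 12 * (κ * ρ) + 2 * (κ * g) + 8 * (κ ^ 2 * u * g)) * e
        + √(Module.finrank ℝ E) * (8 * ε * (κ * u) + 8 * (κ * g) * (κ * u)
            + 4 * ε * (κ ^ 2 * u * g)) * √e
        + Module.finrank ℝ E * (4 * (κ * u) ^ 2 * ε * (κ * g)
            + 2 * (κ ^ 2 * u * g) * (κ * u))
      ≤ (16 * (κ * u + κ * ρ)) * e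
        + √(Module.finrank ℝ E) * (κ * u * (1 + 9 * (κ * ρ))) * √e
        + Module.finrank ℝ E * (3 * (κ * u) ^ 2 * (κ * ρ)) := by gcongr
    _ = _ := by ring

/-! ### comparison with the ambient gradient -/

/-- `D* D c = G c - 2 B c + A B c + B² c` on `T` -/
lemma adj_Dm_Dm (hw : Ref T w ε κ) (Y u c : E) (hc : T.starProjection c = c) :
    adj (Dm w Y u) (Dm w Y u c) = c + adj (fderiv ℝ w Y) (fderiv ℝ w Y c)
      - (2:ℝ) • Hw w Y u c + fderiv ℝ w Y (Hw w Y u c) + Hw w Y u (Hw w Y u c) := by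
  have hD : Dm w Y u c = c + fderiv ℝ w Y c - Hw w Y u c := by
    rw [Dm_apply, D0_apply]
    have : adj (fderiv ℝ w Y) c = 0 := by rw [← hc, hw.adj_fderiv_star]
    rw [this, sub_zero]
  have hA : ∀ v, adj (Dm w Y u) v
      = v + adj (fderiv ℝ w Y) v - fderiv ℝ w Y v - Hw w Y u v := by
    intro v
    refine ext_inner_right ℝ fun s => ?_
    rw [inner_adj_left, Dm_apply, D0_apply]
    simp only [inner_sub_left, inner_add_left, inner_sub_right, inner_add_right]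
    rw [inner_adj_left, hw.Hw_symm]
    have : ⟪v, adj (fderiv ℝ w Y) s⟫ = ⟪fderiv ℝ w Y v, s⟫ := by rw [inner_adj_right]
    rw [this]
  have a1 : adj (fderiv ℝ w Y) c = 0 := by rw [← hc, hw.adj_fderiv_star]
  have a2 : adj (fderiv ℝ w Y) (Hw w Y u c) = 0 := by rw [← hw.star_Hw, hw.adj_fderiv_star]
  have a3 : fderiv ℝ w Y (fderiv ℝ w Y c) = 0 := by
    rw [← hw.fderiv_star Y (fderiv ℝ w Y c), hw.star_fderiv, map_zero]
  have a4 : Hw w Y u (fderiv ℝ w Y c) = 0 := by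
    rw [← hw.Hw_star, hw.star_fderiv, map_zero]
  rw [hD, hA]
  simp only [map_add, map_sub]
  rw [a1, a2, a3, a4]
  module

/-- `|D(G⁻¹ c) - J* c| ≤ 3 κ |u| |c|` for `c ∈ T`. -/
theorem norm_Dm_Gi_sub_le (H : Adm T w ε κ h₁) (hY : ‖co T Y‖ < h₁) {c : E}
    (hc : T.starProjection c = c) :
    ‖Dm w Y (co T Y) (Gi (fderiv ℝ w Y) c) - adj (Jm T w h₁ Y) c‖
      ≤ 3 * (κ * ‖co T Y‖) * ‖c‖ := by
  have hw := H.ref
  have hk := hw.knn
  have he := eps_le H
  have he0 := hw.eps_nonneg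
  set A := fderiv ℝ w Y with hA
  set B := Hw w Y (co T Y) with hB
  set D := Dm w Y (co T Y) with hD
  set J := Jm T w h₁ Y with hJ
  set v := Gi A c with hv
  have hvT : T.starProjection v = v := by rw [hv, star_Gi_apply H, hc]
  have hvn : ‖v‖ ≤ ‖c‖ := norm_Gi_apply_le A c
  have hGv : v + adj A (A v) = c := congrArg (fun L : E →L[ℝ] E => L c) (G_Gi A)
  have hJD : D * J = 1 := by
    have h1 := H.comp_Jm Y
    rw [hw.fderiv_Psi_eq hY] at h1
    exact h1
  have e1 : D v = adj J (adj D (D v)) := by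
    have h2 : adj J * adj D = 1 := by
      have := congrArg star hJD
      rw [star_mul, star_one] at this
      exact this
    exact (congrArg (fun L : E →L[ℝ] E => L (D v)) h2).symm
  have e2 : D v - adj J c = adj J (-((2:ℝ) • B v) + A (B v) + B (B v)) := by
    conv_lhs => rw [e1]
    rw [← map_sub]
    congr 1
    rw [hD, adj_Dm_Dm hw Y (co T Y) v hvT, ← hA, ← hB, hGv]
    module
  rw [e2]
  have hBn : ∀ x, ‖B x‖ ≤ κ * ‖co T Y‖ * ‖x‖ := fun x => hw.norm_Hw_apply_le Y _ x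
  have hku : κ * ‖co T Y‖ ≤ 1 / 16 := by
    calc κ * ‖co T Y‖ ≤ κ * h₁ := by gcongr
      _ ≤ 1 / 16 := H.hκ
  have hku0 : 0 ≤ κ * ‖co T Y‖ := by positivity
  have n1 : ‖-((2:ℝ) • B v) + A (B v) + B (B v)‖ ≤ (2 + 1 / 8) * (κ * ‖co T Y‖ * ‖c‖) := by
    have b1 : ‖B v‖ ≤ κ * ‖co T Y‖ * ‖c‖ := (hBn v).trans (by gcongr)
    calc _ ≤ ‖-((2:ℝ) • B v)‖ + ‖A (B v)‖ + ‖B (B v)‖ := norm_add₃_le
      _ ≤ 2 * ‖B v‖ + ε * ‖B v‖ + (κ * ‖co T Y‖) * ‖B v‖ := by
          gcongr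
          · rw [norm_neg, norm_smul]; norm_num
          · exact hw.norm_fderiv_apply_le Y _
          · exact hBn _
      _ = (2 + ε + κ * ‖co T Y‖) * ‖B v‖ := by ring
      _ ≤ (2 + 1 / 8) * (κ * ‖co T Y‖ * ‖c‖) :=
          mul_le_mul (by linarith) b1 (norm_nonneg _) (by norm_num)
  calc ‖adj J (-((2:ℝ) • B v) + A (B v) + B (B v))‖
      ≤ ‖J‖ * ‖-((2:ℝ) • B v) + A (B v) + B (B v)‖ := norm_adj_apply_le _ _
    _ ≤ (4 / 3) * ((2 + 1 / 8) * (κ * ‖co T Y‖ * ‖c‖)) := by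
        gcongr
        exact H.norm_Jm_le Y
    _ ≤ 3 * (κ * ‖co T Y‖) * ‖c‖ := by
        have : 0 ≤ κ * ‖co T Y‖ * ‖c‖ := by positivity
        nlinarith

/-- `⟨J* c, D v⟩ = ⟨c, v⟩` -/
lemma inner_adj_Jm_Dm (H : Adm T w ε κ h₁) (hY : ‖co T Y‖ < h₁) (c v : E) :
    ⟪adj (Jm T w h₁ Y) c, Dm w Y (co T Y) v⟫ = ⟪c, v⟫ := by
  rw [inner_adj_left]
  have h1 := H.Jm_comp Y
  rw [H.ref.fderiv_Psi_eq hY] at h1
  have h2 : Jm T w h₁ Y (Dm w Y (co T Y) v) = v :=
    congrArg (fun L : E →L[ℝ] E => L v) h1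
  rw [h2]

/-- `om = D u` -/
lemma omF_eq (H : Adm T w ε κ h₁) (Y : E) : omF T w Y = Dm w Y (co T Y) (co T Y) := by
  unfold omF
  rw [Dm_apply, D0_apply, H.ref.fderiv_co, H.ref.Hw_co]
  abel

end Vale.Agent.P214.ODEF
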