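import Mathlib.Analysis.Calculus.ContDiff.Bounds
import Mathlib.Analysis.InnerProductSpace.Calculus
import Mathlib.Analysis.Calculus.Deriv.Inv

/-!
# A small calculus of sizes of derivatives

`Sz k ρ c f Y`: `f` is smooth and `‖D^j f(Y)‖ ρ^j ≤ c` for `j ≤ k`.
-/

open Set Filter Topology
open scoped ContDiff RealInnerProductSpace

set_option linter.all false

namespace Vale.Agent.P214.ODEF

variable {E F G W : Type*} [NormedAddCommGroup E] [NormedSpace ℝ E] [NormedAddCommGroup F]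
  [NormedSpace ℝ F] [NormedAddCommGroup G] [NormedSpace ℝ G] [NormedAddCommGroup W]
  [NormedSpace ℝ W]

/-- `‖D^j f(Y)‖ ρ^j ≤ c` for `j ≤ k` -/
structure Sz (k : ℕ) (ρ c : ℝ) (f : E → F) (Y : E) : Prop where
  smooth : ContDiff ℝ ∞ f
  bound : ∀ j ≤ k, ‖iteratedFDeriv ℝ j f Y‖ * ρ ^ j ≤ c

namespace Sz

variable {k : ℕ} {ρ c c' : ℝ} {f g : E → F} {Y : E}

lemma norm_le (h : Sz k ρ c f Y) : ‖f Y‖ ≤ c := by
  have := h.bound 0 (Nat.zero_le _)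
  simpa using this

lemma nonneg (h : Sz k ρ c f Y) : 0 ≤ c := (norm_nonneg _).trans h.norm_le

lemma mono (h : Sz k ρ c f Y) (hc : c ≤ c') : Sz k ρ c' f Y :=
  ⟨h.smooth, fun j hj => (h.bound j hj).trans hc⟩

lemma of_le {k' : ℕ} (h : Sz k ρ c f Y) (hk : k' ≤ k) : Sz k' ρ c f Y :=
  ⟨h.smooth, fun j hj => h.bound j (hj.trans hk)⟩

lemma contDiffAt (h : Sz k ρ c f Y) (j : ℕ) : ContDiffAt ℝ j f Y :=
  (h.smooth.of_le (by exact_mod_cast le_top)).contDiffAt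

lemma add (hρ : 0 ≤ ρ) (hf : Sz k ρ c f Y) (hg : Sz k ρ c' g Y) :
    Sz k ρ (c + c') (fun y => f y + g y) Y := by
  refine ⟨hf.smooth.add hg.smooth, fun j hj => ?_⟩
  have h1 : iteratedFDeriv ℝ j (fun y => f y + g y) Y
      = iteratedFDeriv ℝ j f Y + iteratedFDeriv ℝ j g Y :=
    iteratedFDeriv_add_apply (hf.contDiffAt j) (hg.contDiffAt j)
  rw [h1]
  calc _ ≤ (‖iteratedFDeriv ℝ j f Y‖ + ‖iteratedFDeriv ℝ j g Y‖) * ρ ^ j := by
        gcongr; exact norm_add_le _ _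
    _ = ‖iteratedFDeriv ℝ j f Y‖ * ρ ^ j + ‖iteratedFDeriv ℝ j g Y‖ * ρ ^ j := by ring
    _ ≤ c + c' := add_le_add (hf.bound j hj) (hg.bound j hj)

lemma neg (hf : Sz k ρ c f Y) : Sz k ρ c (fun y => -f y) Y := by
  refine ⟨hf.smooth.neg, fun j hj => ?_⟩
  have h1 : iteratedFDeriv ℝ j (fun y => -f y) Y = -iteratedFDeriv ℝ j f Y :=
    iteratedFDeriv_neg_apply
  rw [h1, norm_neg]
  exact hf.bound j hj

lemma sub (hρ : 0 ≤ ρ) (hf : Sz k ρ c f Y) (hg : Sz k ρ c' g Y) :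
    Sz k ρ (c + c') (fun y => f y - g y) Y := by
  have := hf.add hρ hg.neg
  simpa [sub_eq_add_neg] using this

/-- bilinear operations -/
lemma bilin (hρ : 0 ≤ ρ) (B : F →L[ℝ] G →L[ℝ] W) {g : E → G} (hf : Sz k ρ c f Y)
    (hg : Sz k ρ c' g Y) : Sz k ρ (‖B‖ * (2 ^ k * (c * c'))) (fun y => B (f y) (g y)) Y := by
  refine ⟨?_, fun j hj => ?_⟩
  · exact B.isBoundedBilinearMap.contDiff.comp (hf.smooth.prodMk hg.smooth)
  have h1 := B.norm_iteratedFDeriv_le_of_bilinear (N := j)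
    (hf.smooth.of_le (by exact_mod_cast le_top))
    (hg.smooth.of_le (by exact_mod_cast le_top)) Y (n := j) le_rfl
  have hc := hf.nonneg
  have hc' := hg.nonneg
  calc _ ≤ (‖B‖ * ∑ i ∈ Finset.range (j + 1),
        (j.choose i : ℝ) * ‖iteratedFDeriv ℝ i f Y‖ * ‖iteratedFDeriv ℝ (j - i) g Y‖) * ρ ^ j := by
        gcongr
    _ = ‖B‖ * ∑ i ∈ Finset.range (j + 1), (j.choose i : ℝ) *
        ((‖iteratedFDeriv ℝ i f Y‖ * ρ ^ i) * (‖iteratedFDeriv ℝ (j - i) g Y‖ * ρ ^ (j - i))) := by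
        rw [mul_assoc, Finset.sum_mul]
        congr 1
        refine Finset.sum_congr rfl fun i hi => ?_
        have hij : i ≤ j := Nat.lt_succ_iff.1 (Finset.mem_range.1 hi)
        have : ρ ^ j = ρ ^ i * ρ ^ (j - i) := by rw [← pow_add, Nat.add_sub_cancel' hij]
        rw [this]; ring
    _ ≤ ‖B‖ * ∑ i ∈ Finset.range (j + 1), (j.choose i : ℝ) * (c * c') := by
        gcongr with i hi
        · have hij : i ≤ j := Nat.lt_succ_iff.1 (Finset.mem_range.1 hi)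
          exact hf.bound i (hij.trans hj)
        · exact hg.bound (j - i) ((Nat.sub_le _ _).trans hj)
    _ = ‖B‖ * (2 ^ j * (c * c')) := by
        rw [← Finset.sum_mul]
        congr 2
        have := Nat.sum_range_choose j
        exact_mod_cast this
    _ ≤ ‖B‖ * (2 ^ k * (c * c')) := by
        gcongr
        norm_num

/-- bilinear operations of norm at most one -/
lemma bilin' (hρ : 0 ≤ ρ) (B : F →L[ℝ] G →L[ℝ] W) (hB : ‖B‖ ≤ 1) {g : E → G}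
    (hf : Sz k ρ c f Y) (hg : Sz k ρ c' g Y) :
    Sz k ρ (2 ^ k * (c * c')) (fun y => B (f y) (g y)) Y := by
  refine (hf.bilin hρ B hg).mono ?_
  have hc := hf.nonneg
  have hc' := hg.nonneg
  calc ‖B‖ * (2 ^ k * (c * c')) ≤ 1 * (2 ^ k * (c * c')) := by gcongr
    _ = _ := one_mul _

/-- linear operations -/
lemma clm (hρ : 0 ≤ ρ) (L : F →L[ℝ] G) (hL : ‖L‖ ≤ 1) (hf : Sz k ρ c f Y) :
    Sz k ρ c (fun y => L (f y)) Y := by
  refine ⟨L.contDiff.comp hf.smooth, fun j hj => ?_⟩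
  have h1 := L.norm_iteratedFDeriv_comp_left (hf.contDiffAt j) (n := j) le_rfl
  have h2 : (fun y => L (f y)) = L ∘ f := rfl
  rw [h2]
  calc _ ≤ (‖L‖ * ‖iteratedFDeriv ℝ j f Y‖) * ρ ^ j := by gcongr
    _ ≤ (1 * ‖iteratedFDeriv ℝ j f Y‖) * ρ ^ j := by gcongr
    _ = ‖iteratedFDeriv ℝ j f Y‖ * ρ ^ j := by rw [one_mul]
    _ ≤ c := hf.bound j hj

lemma fderiv (hρ : 0 < ρ) (hf : Sz (k + 1) ρ c f Y) : Sz k ρ (c / ρ) (fderiv ℝ f) Y := by
  refine ⟨hf.smooth.fderiv_right (by exact_mod_cast le_rfl), fun j hj => ?_⟩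
  have h1 := hf.bound (j + 1) (by omega)
  rw [norm_iteratedFDeriv_fderiv, le_div_iff₀ hρ]
  calc _ = ‖iteratedFDeriv ℝ (j + 1) f Y‖ * ρ ^ (j + 1) := by rw [pow_succ]; ring
    _ ≤ c := h1

lemma of_fderiv (hρ : 0 ≤ ρ) (hs : ContDiff ℝ ∞ f) (h0 : ‖f Y‖ ≤ c)
    (h1 : Sz k ρ c' (_root_.fderiv ℝ f) Y) (h2 : c' * ρ ≤ c) : Sz (k + 1) ρ c f Y := by
  refine ⟨hs, fun j hj => ?_⟩
  rcases j with _ | j
  · simpa using h0
  · have h3 := h1.bound j (by omega)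
    rw [norm_iteratedFDeriv_fderiv] at h3
    calc ‖iteratedFDeriv ℝ (j + 1) f Y‖ * ρ ^ (j + 1)
        = (‖iteratedFDeriv ℝ (j + 1) f Y‖ * ρ ^ j) * ρ := by rw [pow_succ]; ring
      _ ≤ c' * ρ := by gcongr
      _ ≤ c := h2

lemma congr (hf : Sz k ρ c f Y) (h : f = g) : Sz k ρ c g Y := h ▸ hf

lemma const (hρ : 0 ≤ ρ) (v : F) (hv : ‖v‖ ≤ c) : Sz k ρ c (fun _ : E => v) Y := by
  refine ⟨contDiff_const, fun j hj => ?_⟩
  rcases j with _ | j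
  · simpa using hv
  · rw [iteratedFDeriv_const_of_ne (by omega)]
    simp
    exact (norm_nonneg v).trans hv

end Sz

section ops

variable {k : ℕ} {ρ c c' : ℝ} {Y : E}

/-- application -/
lemma Sz.apply (hρ : 0 ≤ ρ) {L : E → (F →L[ℝ] G)} {v : E → F} (hL : Sz k ρ c L Y)
    (hv : Sz k ρ c' v Y) : Sz k ρ (2 ^ k * (c * c')) (fun y => L y (v y)) Y :=
  hL.bilin' hρ (ContinuousLinearMap.id ℝ (F →L[ℝ] G)) ContinuousLinearMap.norm_id_le hv

/-- composition -/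
lemma Sz.comp' (hρ : 0 ≤ ρ) {L : E → (G →L[ℝ] W)} {M : E → (F →L[ℝ] G)} (hL : Sz k ρ c L Y)
    (hM : Sz k ρ c' M Y) : Sz k ρ (2 ^ k * (c * c')) (fun y => (L y).comp (M y)) Y :=
  hL.bilin' hρ (ContinuousLinearMap.compL ℝ F G W) (ContinuousLinearMap.norm_compL_le ℝ F G W) hM

/-- multiplication of real functions -/
lemma Sz.mul (hρ : 0 ≤ ρ) {f g : E → ℝ} (hf : Sz k ρ c f Y)
    (hg : Sz k ρ c' g Y) : Sz k ρ (2 ^ k * (c * c')) (fun y => f y * g y) Y :=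
  hf.bilin' hρ (ContinuousLinearMap.mul ℝ ℝ) (ContinuousLinearMap.opNorm_mul_le ℝ ℝ) hg

/-- inner product -/
lemma Sz.inner {V : Type*} [NormedAddCommGroup V] [InnerProductSpace ℝ V] (hρ : 0 ≤ ρ)
    {f g : E → V} (hf : Sz k ρ c f Y)
    (hg : Sz k ρ c' g Y) : Sz k ρ (2 ^ k * (c * c')) (fun y => ⟪f y, g y⟫) Y :=
  hf.bilin' hρ (innerSL ℝ) (norm_innerSL_le ℝ) hg

end ops

section directional

variable {k : ℕ} {ρ c c' : ℝ} {Y : E} {f : E → F}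

/-- sizes from directional derivatives -/
lemma Sz.of_fderiv_apply (hρ : 0 < ρ) (hc' : 0 ≤ c') (hs : ContDiff ℝ ∞ f) (h0 : ‖f Y‖ ≤ c)
    (h1 : ∀ v, Sz k ρ (c' * ‖v‖) (fun y => _root_.fderiv ℝ f y v) Y) (h2 : c' * ρ ≤ c) :
    Sz (k + 1) ρ c f Y := by
  have hs1 : ContDiff ℝ ∞ (_root_.fderiv ℝ f) := hs.fderiv_right (by exact_mod_cast le_rfl)
  refine Sz.of_fderiv hρ.le hs h0 ⟨hs1, fun j hj => ?_⟩ h2
  rw [← le_div_iff₀ (by positivity)]
  refine ContinuousMultilinearMap.opNorm_le_bound (by positivity) fun u => ?_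
  refine ContinuousLinearMap.opNorm_le_bound _ (by positivity) fun v => ?_
  have h3 := (h1 v).bound j hj
  rw [← le_div_iff₀ (by positivity)] at h3
  have h4 : iteratedFDeriv ℝ j (fun y => _root_.fderiv ℝ f y v) Y
      = (ContinuousLinearMap.apply ℝ F v).compContinuousMultilinearMap
        (iteratedFDeriv ℝ j (_root_.fderiv ℝ f) Y) :=
    (ContinuousLinearMap.apply ℝ F v).iteratedFDeriv_comp_left (n := j)
      ((hs1.of_le (by exact_mod_cast le_top)).contDiffAt) le_rfl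
  have h5 : (iteratedFDeriv ℝ j (_root_.fderiv ℝ f) Y u) v
      = iteratedFDeriv ℝ j (fun y => _root_.fderiv ℝ f y v) Y u := by
    rw [h4]; rfl
  rw [h5]
  refine (ContinuousMultilinearMap.le_opNorm _ _).trans ?_
  calc _ ≤ (c' * ‖v‖ / ρ ^ j) * ∏ i, ‖u i‖ := by gcongr
    _ = _ := by ring

/-- evaluation at a fixed vector -/
lemma Sz.eval (hρ : 0 ≤ ρ) {L : E → (F →L[ℝ] G)} (hL : Sz k ρ c L Y) (v : F) :
    Sz k ρ (c * ‖v‖) (fun y => L y v) Y := by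
  have hc := hL.nonneg
  have hs : ContDiff ℝ ∞ (fun y => L y v) := hL.smooth.clm_apply contDiff_const
  refine ⟨hs, fun j hj => ?_⟩
  have h4 : iteratedFDeriv ℝ j (fun y => L y v) Y
      = (ContinuousLinearMap.apply ℝ G v).compContinuousMultilinearMap
        (iteratedFDeriv ℝ j L Y) :=
    (ContinuousLinearMap.apply ℝ G v).iteratedFDeriv_comp_left (n := j)
      ((hL.smooth.of_le (by exact_mod_cast le_top)).contDiffAt) le_rfl
  have h3 := hL.bound j hj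
  have h5 : ‖iteratedFDeriv ℝ j (fun y => L y v) Y‖ ≤ ‖iteratedFDeriv ℝ j L Y‖ * ‖v‖ := by
    refine ContinuousMultilinearMap.opNorm_le_bound (by positivity) fun u => ?_
    rw [h4]
    have h6 : ((ContinuousLinearMap.apply ℝ G v).compContinuousMultilinearMap
        (iteratedFDeriv ℝ j L Y)) u = (iteratedFDeriv ℝ j L Y u) v := rfl
    rw [h6]
    calc _ ≤ ‖iteratedFDeriv ℝ j L Y u‖ * ‖v‖ := ContinuousLinearMap.le_opNorm _ _
      _ ≤ (‖iteratedFDeriv ℝ j L Y‖ * ∏ i, ‖u i‖) * ‖v‖ := by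
          gcongr; exact ContinuousMultilinearMap.le_opNorm _ _
      _ = _ := by ring
  calc _ ≤ (‖iteratedFDeriv ℝ j L Y‖ * ‖v‖) * ρ ^ j := by gcongr
    _ = (‖iteratedFDeriv ℝ j L Y‖ * ρ ^ j) * ‖v‖ := by ring
    _ ≤ c * ‖v‖ := by gcongr

end directional

/-! ### quotients -/

lemma norm_smul_clm (c : ℝ) (L : E →L[ℝ] F) : ‖c • L‖ = |c| * ‖L‖ := by
  rw [norm_smul, Real.norm_eq_abs]

lemma norm_add_clm (L M : E →L[ℝ] F) : ‖L + M‖ ≤ ‖L‖ + ‖M‖ := norm_add_le L M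

lemma norm_sub_clm (L M : E →L[ℝ] F) : ‖L - M‖ ≤ ‖L‖ + ‖M‖ := norm_sub_le L M

lemma norm_smulRight_clm (L : E →L[ℝ] ℝ) (v : F) : ‖L.smulRight v‖ = ‖L‖ * ‖v‖ :=
  ContinuousLinearMap.norm_smulRight_apply L v

/-- derivatives of a quotient, orders zero, one, two -/
theorem quot_bounds {N S : E → ℝ} {Y : E} {ρ a s : ℝ} (hρ : 0 < ρ) (ha : Sz 2 ρ a N Y)
    (hs : Sz 2 ρ s S Y) {c : ℝ} (hc : 0 < c) (hSc : c ≤ S Y) :
    |N Y / S Y| ≤ a / c ∧
    ‖fderiv ℝ (fun y => N y / S y) Y‖ * ρ ≤ a / c + a * s / c ^ 2 ∧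
    ‖fderiv ℝ (fderiv ℝ (fun y => N y / S y)) Y‖ * ρ ^ 2
      ≤ a / c + 3 * (a * s) / c ^ 2 + 2 * (a * s ^ 2) / c ^ 3 := by
  have hS0 : 0 < S Y := hc.trans_le hSc
  have ha0 := ha.nonneg
  have hs0 := hs.nonneg
  have hN1 : ‖fderiv ℝ N Y‖ * ρ ≤ a := by
    have := ha.bound 1 (by norm_num)
    rwa [norm_iteratedFDeriv_one, pow_one] at this
  have hS1 : ‖fderiv ℝ S Y‖ * ρ ≤ s := by
    have := hs.bound 1 (by norm_num)
    rwa [norm_iteratedFDeriv_one, pow_one] at this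
  have hN2 : ‖fderiv ℝ (fderiv ℝ N) Y‖ * ρ ^ 2 ≤ a := by
    have := ha.bound 2 (by norm_num)
    rw [← norm_iteratedFDeriv_fderiv, norm_iteratedFDeriv_one] at this
    exact this
  have hS2 : ‖fderiv ℝ (fderiv ℝ S) Y‖ * ρ ^ 2 ≤ s := by
    have := hs.bound 2 (by norm_num)
    rw [← norm_iteratedFDeriv_fderiv, norm_iteratedFDeriv_one] at this
    exact this
  have dN : Differentiable ℝ N := ha.smooth.differentiable (by simp)
  have dS : Differentiable ℝ S := hs.smooth.differentiable (by simp)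
  have dN1 : Differentiable ℝ (fderiv ℝ N) :=
    (ha.smooth.fderiv_right (m := ∞) (by exact_mod_cast le_rfl)).differentiable (by simp)
  have dS1 : Differentiable ℝ (fderiv ℝ S) :=
    (hs.smooth.fderiv_right (m := ∞) (by exact_mod_cast le_rfl)).differentiable (by simp)
  -- first derivative at points near `Y`
  have hder : ∀ y, S y ≠ 0 → HasFDerivAt (fun y => N y / S y)
      ((S y)⁻¹ • (fderiv ℝ N y - (N y / S y) • fderiv ℝ S y)) y := by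
    intro y hy
    have h1 : HasFDerivAt (fun y => (S y)⁻¹) ((-(S y ^ 2)⁻¹) • fderiv ℝ S y) y :=
      (hasDerivAt_inv hy).comp_hasFDerivAt y (dS y).hasFDerivAt
    have h2 := (dN y).hasFDerivAt.mul h1
    have h3 : (fun y => N y / S y) = fun y => N y * (S y)⁻¹ := by
      funext y; rw [div_eq_mul_inv]
    rw [h3]
    refine h2.congr_fderiv ?_
    ext v
    simp only [ContinuousLinearMap.add_apply, ContinuousLinearMap.smul_apply, smul_eq_mul,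
      ContinuousLinearMap.sub_apply]
    field_simp
    ring
  have hne : ∀ᶠ y in 𝓝 Y, S y ≠ 0 := by
    have := hs.smooth.continuous.continuousAt (x := Y)
    exact this.eventually_ne hS0.ne'
  have hq0 : |N Y / S Y| ≤ a / c := by
    rw [abs_div, abs_of_pos hS0]
    have := ha.norm_le
    rw [Real.norm_eq_abs] at this
    gcongr
  have hd1 := (hder Y hS0.ne').fderiv
  set V1 := fderiv ℝ N Y - (N Y / S Y) • fderiv ℝ S Y with hV1
  have hV1n : ‖V1‖ * ρ ≤ a + a * s / c := by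
    calc ‖V1‖ * ρ ≤ (‖fderiv ℝ N Y‖ + ‖(N Y / S Y) • fderiv ℝ S Y‖) * ρ := by
          gcongr; exact norm_sub_le _ _
      _ = ‖fderiv ℝ N Y‖ * ρ + |N Y / S Y| * (‖fderiv ℝ S Y‖ * ρ) := by
          rw [norm_smul, Real.norm_eq_abs]; ring
      _ ≤ a + a / c * s := by gcongr
      _ = _ := by ring
  have hinv : (S Y)⁻¹ ≤ c⁻¹ := by gcongr
  have hinv0 : 0 ≤ (S Y)⁻¹ := by positivity
  have hb1 : ‖fderiv ℝ (fun y => N y / S y) Y‖ * ρ ≤ a / c + a * s / c ^ 2 := by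
    rw [hd1, norm_smul, Real.norm_eq_abs, abs_of_nonneg hinv0]
    calc (S Y)⁻¹ * ‖V1‖ * ρ = (S Y)⁻¹ * (‖V1‖ * ρ) := by ring
      _ ≤ c⁻¹ * (a + a * s / c) := by gcongr
      _ = a / c + a * s / c ^ 2 := by field_simp
  refine ⟨hq0, hb1, ?_⟩
  -- second derivative
  have hev : fderiv ℝ (fun y => N y / S y) =ᶠ[𝓝 Y]
      fun y => (S y)⁻¹ • (fderiv ℝ N y - (N y / S y) • fderiv ℝ S y) := by
    filter_upwards [hne] with y hy
    exact (hder y hy).fderiv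
  have hi : HasFDerivAt (fun y => (S y)⁻¹) ((-(S Y ^ 2)⁻¹) • fderiv ℝ S Y) Y :=
    (hasDerivAt_inv hS0.ne').comp_hasFDerivAt Y (dS Y).hasFDerivAt
  have hV : HasFDerivAt (fun y => fderiv ℝ N y - (N y / S y) • fderiv ℝ S y)
      (fderiv ℝ (fderiv ℝ N) Y - ((N Y / S Y) • fderiv ℝ (fderiv ℝ S) Y
        + (fderiv ℝ (fun y => N y / S y) Y).smulRight (fderiv ℝ S Y))) Y := by
    refine (dN1 Y).hasFDerivAt.sub ?_
    have h1 : HasFDerivAt (fun y => N y / S y) (fderiv ℝ (fun y => N y / S y) Y) Y :=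
      (hder Y hS0.ne').differentiableAt.hasFDerivAt
    exact h1.smul (dS1 Y).hasFDerivAt
  have hfin := hi.smul hV
  have hfin' : fderiv ℝ (fun y => (S y)⁻¹ • (fderiv ℝ N y - (N y / S y) • fderiv ℝ S y)) Y = _ :=
    hfin.fderiv
  rw [hev.fderiv_eq, hfin']
  have n1 : ‖fderiv ℝ (fderiv ℝ N) Y - ((N Y / S Y) • fderiv ℝ (fderiv ℝ S) Y
        + (fderiv ℝ (fun y => N y / S y) Y).smulRight (fderiv ℝ S Y))‖ * ρ ^ 2
      ≤ a + (a / c * s + (a / c + a * s / c ^ 2) * s) := by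
    have b1 : ‖(N Y / S Y) • fderiv ℝ (fderiv ℝ S) Y‖ * ρ ^ 2 ≤ a / c * s := by
      rw [norm_smul_clm, mul_assoc]
      gcongr
    have b2 : ‖(fderiv ℝ (fun y => N y / S y) Y).smulRight (fderiv ℝ S Y)‖ * ρ ^ 2
        ≤ (a / c + a * s / c ^ 2) * s := by
      rw [norm_smulRight_clm]
      calc _ = (‖fderiv ℝ (fun y => N y / S y) Y‖ * ρ) * (‖fderiv ℝ S Y‖ * ρ) := by ring
        _ ≤ (a / c + a * s / c ^ 2) * s := by gcongr
    calc _ ≤ (‖fderiv ℝ (fderiv ℝ N) Y‖ + (‖(N Y / S Y) • fderiv ℝ (fderiv ℝ S) Y‖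
          + ‖(fderiv ℝ (fun y => N y / S y) Y).smulRight (fderiv ℝ S Y)‖)) * ρ ^ 2 := by
          gcongr
          exact (norm_sub_clm _ _).trans (add_le_add_right (norm_add_clm _ _) _)
      _ = ‖fderiv ℝ (fderiv ℝ N) Y‖ * ρ ^ 2 + (‖(N Y / S Y) • fderiv ℝ (fderiv ℝ S) Y‖ * ρ ^ 2
          + ‖(fderiv ℝ (fun y => N y / S y) Y).smulRight (fderiv ℝ S Y)‖ * ρ ^ 2) := by ring
      _ ≤ _ := by gcongr
  have n2 : ‖((-(S Y ^ 2)⁻¹) • fderiv ℝ S Y).smulRight V1‖ * ρ ^ 2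
      ≤ (c ^ 2)⁻¹ * s * (a + a * s / c) := by
    rw [norm_smulRight_clm, norm_smul, norm_neg, norm_inv, norm_pow,
      Real.norm_eq_abs, abs_of_pos hS0]
    calc _ = (S Y ^ 2)⁻¹ * (‖fderiv ℝ S Y‖ * ρ) * (‖V1‖ * ρ) := by ring
      _ ≤ (c ^ 2)⁻¹ * s * (a + a * s / c) := by gcongr
  calc _ ≤ (‖(S Y)⁻¹ • (fderiv ℝ (fderiv ℝ N) Y - ((N Y / S Y) • fderiv ℝ (fderiv ℝ S) Y
        + (fderiv ℝ (fun y => N y / S y) Y).smulRight (fderiv ℝ S Y)))‖
        + ‖((-(S Y ^ 2)⁻¹) • fderiv ℝ S Y).smulRight V1‖) * ρ ^ 2 := by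
        gcongr; exact norm_add_clm _ _
    _ = (S Y)⁻¹ * (‖fderiv ℝ (fderiv ℝ N) Y - ((N Y / S Y) • fderiv ℝ (fderiv ℝ S) Y
        + (fderiv ℝ (fun y => N y / S y) Y).smulRight (fderiv ℝ S Y))‖ * ρ ^ 2)
        + ‖((-(S Y ^ 2)⁻¹) • fderiv ℝ S Y).smulRight V1‖ * ρ ^ 2 := by
        rw [norm_smul_clm, abs_of_nonneg hinv0]; ring
    _ ≤ c⁻¹ * (a + (a / c * s + (a / c + a * s / c ^ 2) * s))
        + (c ^ 2)⁻¹ * s * (a + a * s / c) := by gcongr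
    _ = _ := by field_simp; ring

end Vale.Agent.P214.ODEF
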