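import Vale.Agent.P214.ODEF.Grad

/-!
# P214, block ODEF: the normalised gradient field

`vpm = 1 - |ft - PS ft|²/|ft|²`, `be = vpm⁻¹ gmF`; bounds `1 - vpm ≤ κ²|bx|²`,
`|D vpm| ≤ 5 κ² |ft|`, `|D be - p| ≤ 3 κ|ft|`, `|divg be - m| ≤ (2m+6) κ²|ft|²`.
-/

open Set Filter Topology MeasureTheory Metric
open scoped RealInnerProductSpace ContDiff

set_option linter.all false

namespace Vale.Agent.P214.ODEF

open FV FM

variable {E : Type*} [NormedAddCommGroup E] [InnerProductSpace ℝ E] [FiniteDimensional ℝ E]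

/-- squared cosine of the angle between position vector and tangent plane -/
noncomputable def vpm (T : Submodule ℝ E) (w : E → E) (z Y : E) : ℝ :=
  1 - ‖ft T w z Y - PS T w Y (ft T w z Y)‖ ^ 2 / ‖ft T w z Y‖ ^ 2

variable {T : Submodule ℝ E} {w : E → E} {ε κ h₁ : ℝ} {z Y : E}

section

variable (H : Adm T w ε κ h₁)
include H

/-- the normal part of the position vector, vertical component -/
lemma co_ft_sub_PS (z Y : E) : co T (ft T w z Y - PS T w Y (ft T w z Y))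
    = w Y - w z - fderiv ℝ w Y (gmF T w z Y) := by
  have hw := H.ref
  have h1 : co T (ft T w z Y) = w Y - w z := by
    unfold ft
    rw [map_add, co_star, zero_add, co_apply, map_sub T.starProjection, hw.perp, hw.perp, sub_zero,
      sub_zero]
  have h2 : co T (gmF T w z Y) = 0 := by rw [co_apply, star_gmF H, sub_self]
  rw [map_sub, PS_ft H, map_add, h1, h2, hw.co_fderiv, zero_add]

lemma inner_ft (z Y v : E) (hv : T.starProjection v = v) :
    ⟪ft T w z Y, v + fderiv ℝ w Y v⟫ = ⟪cRm T w z Y, v⟫ := by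
  have hw := H.ref
  unfold ft cRm
  have h1 : ⟪w Y - w z, v⟫ = 0 := by
    rw [← hv, ← inner_star, map_sub, hw.perp, hw.perp, sub_zero, inner_zero_left]
  have h2 : ⟪T.starProjection (Y - z), fderiv ℝ w Y v⟫ = 0 := by
    rw [inner_star, hw.star_fderiv, inner_zero_right]
  rw [inner_add_left, inner_add_right, inner_add_right, h1, h2, inner_add_left, inner_adj_left]
  ring

/-- `|ft - PS ft|² = |ft|² - ⟨cR, gm⟩` -/
lemma norm_sq_ft_sub_PS (z Y : E) : ‖ft T w z Y - PS T w Y (ft T w z Y)‖ ^ 2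
    = ‖ft T w z Y‖ ^ 2 - ⟪cRm T w z Y, gmF T w z Y⟫ := by
  have h1 : ⟪ft T w z Y, PS T w Y (ft T w z Y)⟫ = ⟪cRm T w z Y, gmF T w z Y⟫ := by
    rw [PS_ft H, inner_ft H z Y _ (star_gmF H z Y)]
  have h2 : ‖ft T w z Y‖ ^ 2 = ‖PS T w Y (ft T w z Y)‖ ^ 2
      + ‖ft T w z Y - PS T w Y (ft T w z Y)‖ ^ 2 := by
    have := norm_sq_star_add_co (planeOf T w Y) (ft T w z Y)
    exact this
  have h3 : ⟪ft T w z Y, PS T w Y (ft T w z Y)⟫ = ‖PS T w Y (ft T w z Y)‖ ^ 2 :=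
    inner_star_self (planeOf T w Y) _
  rw [← h1, h3, h2]; ring

lemma hasFDerivAt_ft (z Y : E) :
    HasFDerivAt (ft T w z) (T.starProjection + fderiv ℝ w Y) Y := by
  have h := (T.starProjection.hasFDerivAt (x := Y - z)).comp Y ((hasFDerivAt_id Y).sub_const z)
  rw [ContinuousLinearMap.comp_id] at h
  exact h.add ((H.ref.diff Y).hasFDerivAt.sub_const _)

/-- derivative of `|ft|²` -/
lemma hasFDerivAt_norm_sq_ft (z Y : E) :
    HasFDerivAt (fun y => ‖ft T w z y‖ ^ 2) ((2:ℝ) • innerSL ℝ (cRm T w z Y)) Y := by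
  have h1 := (hasFDerivAt_ft H z Y).norm_sq
  refine h1.congr_fderiv ?_
  ext v
  have h2 : ⟪ft T w z Y, T.starProjection v + fderiv ℝ w Y v⟫ = ⟪cRm T w z Y, v⟫ := by
    rw [← H.ref.fderiv_star Y v, inner_ft H z Y _ (star_self T v), ← inner_star, star_cRm H]
  show (2 • (innerSL ℝ (ft T w z Y)).comp (T.starProjection + fderiv ℝ w Y)) v
    = (2:ℝ) * ⟪cRm T w z Y, v⟫
  rw [← h2]
  simp [inner_add_right, mul_add]

/-- derivative of the squared normal part -/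
lemma hasFDerivAt_nsq (z Y : E) :
    HasFDerivAt (fun y => ‖ft T w z y - PS T w y (ft T w z y)‖ ^ 2)
      ((-2:ℝ) • (innerSL ℝ (w Y - w z - fderiv ℝ w Y (gmF T w z Y))).comp
        (D2 w Y (gmF T w z Y))) Y := by
  have hw := H.ref
  have h0 : (fun y => ‖ft T w z y - PS T w y (ft T w z y)‖ ^ 2)
      = fun y => ‖ft T w z y‖ ^ 2 - ⟪cRm T w z y, gmF T w z y⟫ := by
    funext y; exact norm_sq_ft_sub_PS H z y
  rw [h0]
  have h1 := (hasFDerivAt_norm_sq_ft H z Y).sub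
    ((hasFDerivAt_cRm hw z Y).inner ℝ (hasFDerivAt_gmF H z Y))
  refine h1.congr_fderiv ?_
  ext v
  set g := gmF T w z Y with hg
  set c := cRm T w z Y with hc
  set A := fderiv ℝ w Y with hA
  have hgT : T.starProjection g = g := star_gmF H z Y
  have hcT : T.starProjection c = c := star_cRm H z Y
  have hGg : g + adj A (A g) = c := G_gmF H z Y
  have e1 : ⟪T.starProjection v + adj A (A v) + Hw w Y (w Y - w z) v, g⟫
      = ⟪c, v⟫ + ⟪w Y - w z, D2 w Y g v⟫ := by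
    rw [inner_add_left, inner_add_left, inner_Hw, inner_star, hgT, inner_adj_left,
      real_inner_comm g v, real_inner_comm (A g) (A v), ← inner_adj_left, ← inner_add_left, hGg,
      hw.D2_symm Y v g]
  have e2 : ⟪c, dgm T w z Y v⟫ = ⟪c, v⟫ + ⟪w Y - w z - A g, D2 w Y g v⟫
      - ⟪A g, D2 w Y g v⟫ := by
    have a1 : dgm T w z Y v = T.starProjection v + Gi A (Hw w Y (w Y - w z - A g) v)
        - Gi A (adj A (D2 w Y g v)) := rfl
    have a2 : Gi A c = g := rfl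
    rw [a1, inner_sub_right, inner_add_right, ← inner_star, hcT, ← inner_Gi, ← inner_Gi, a2,
      inner_adj_right, real_inner_comm (Hw w Y (w Y - w z - A g) v) g, inner_Hw, hw.D2_symm Y v g]
  have e3 : (((2:ℝ) • innerSL ℝ c) - (fderivInnerCLM ℝ (c, g)).comp
      ((T.starProjection + adj A * A + Hw w Y (w Y - w z)).prod (dgm T w z Y))) v
      = 2 * ⟪c, v⟫ - (⟪c, dgm T w z Y v⟫
        + ⟪T.starProjection v + adj A (A v) + Hw w Y (w Y - w z) v, g⟫) := by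
    simp [mul_apply']
  have e4 : ((-2:ℝ) • (innerSL ℝ (w Y - w z - A g)).comp (D2 w Y g)) v
      = -2 * ⟪w Y - w z - A g, D2 w Y g v⟫ := by
    simp [inner_sub_left]
  rw [e3, e4, e1, e2]
  have e5 : ⟪w Y - w z, D2 w Y g v⟫ = ⟪w Y - w z - A g, D2 w Y g v⟫ + ⟪A g, D2 w Y g v⟫ := by
    rw [← inner_add_left]; congr 1; abel
  rw [e5]; ring

lemma vpm_le_one (z Y : E) : vpm T w z Y ≤ 1 := by
  unfold vpm
  have : 0 ≤ ‖ft T w z Y - PS T w Y (ft T w z Y)‖ ^ 2 / ‖ft T w z Y‖ ^ 2 := by positivity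
  linarith

lemma norm_n_le (z Y : E) :
    ‖ft T w z Y - PS T w Y (ft T w z Y)‖ ≤ κ * ‖ft T w z Y‖ ^ 2 := by
  refine (norm_ft_sub_PS_le H z Y).trans ?_
  have := H.ref.knn
  gcongr
  exact norm_bx_le_ft H z Y

lemma one_sub_vpm_le (z Y : E) : 1 - vpm T w z Y ≤ (κ * ‖ft T w z Y‖) ^ 2 := by
  unfold vpm
  rw [sub_sub_cancel]
  rcases eq_or_lt_of_le (norm_nonneg (ft T w z Y)) with h0 | h0
  · rw [← h0]; simp
  · rw [div_le_iff₀ (by positivity)]
    calc _ ≤ (κ * ‖ft T w z Y‖ ^ 2) ^ 2 := by gcongr; exact norm_n_le H z Y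
      _ = _ := by ring

/-- `vpm` is differentiable with small derivative -/
theorem exists_hasFDerivAt_vpm (z Y : E) :
    ∃ L : E →L[ℝ] ℝ, HasFDerivAt (vpm T w z) L Y ∧ ‖L‖ ≤ 5 * κ ^ 2 * ‖ft T w z Y‖ := by
  have hw := H.ref
  have hk := hw.knn
  have he := eps_le H
  have he0 := hw.eps_nonneg
  rcases eq_or_lt_of_le (norm_nonneg (ft T w z Y)) with h0 | h0
  · -- at the fibre over the centre
    refine ⟨0, ?_, by simp [← h0]⟩
    have hb : ∀ y, |vpm T w z y - 1| ≤ κ ^ 2 * (1 + ε) ^ 2 * ‖y - Y‖ ^ 2 := by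
      intro y
      have h1 := one_sub_vpm_le H z y
      have h2 := vpm_le_one H z y
      have h3 : ‖T.starProjection (Y - z)‖ = 0 := by
        have := norm_bx_le_ft H z Y
        rw [← h0] at this
        exact le_antisymm this (norm_nonneg _)
      have h4 : T.starProjection (y - z) = T.starProjection (y - Y) := by
        have : T.starProjection (Y - z) = 0 := norm_eq_zero.1 h3
        have h5 : y - z = (y - Y) + (Y - z) := by abel
        rw [h5, map_add, this, add_zero]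
      have h5 : ‖ft T w z y‖ ≤ (1 + ε) * ‖y - Y‖ := by
        refine (norm_ft_le H z y).trans ?_
        rw [h4]
        gcongr
        exact norm_star_le T _
      rw [abs_sub_comm, abs_of_nonneg (by linarith)]
      calc _ ≤ (κ * ‖ft T w z y‖) ^ 2 := h1
        _ ≤ (κ * ((1 + ε) * ‖y - Y‖)) ^ 2 := by gcongr
        _ = _ := by ring
    have hv1 : vpm T w z Y = 1 := by
      have := hb Y
      simp at this
      linarith [this]
    rw [hasFDerivAt_iff_isLittleO_nhds_zero]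
    have hO : (fun x : E => vpm T w z (Y + x) - vpm T w z Y - (0 : E →L[ℝ] ℝ) x)
        =O[𝓝 0] fun x : E => ‖x‖ ^ 2 := by
      refine Asymptotics.IsBigO.of_bound (κ ^ 2 * (1 + ε) ^ 2) (Eventually.of_forall fun x => ?_)
      have := hb (Y + x)
      rw [add_sub_cancel_left] at this
      rw [hv1]
      simpa using this
    refine hO.trans_isLittleO ?_
    have h1 : (fun x : E => ‖x‖ ^ 2) =o[𝓝 0] fun x : E => ‖x‖ :=
      (Asymptotics.isLittleO_pow_id one_lt_two).comp_tendsto (by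
        have : Tendsto (fun x : E => ‖x‖) (𝓝 0) (𝓝 0) := by
          have := (continuous_norm (E := E)).tendsto 0
          simpa using this
        exact this)
    exact h1.of_norm_right
  · -- away from the fibre
    have hne : ‖ft T w z Y‖ ^ 2 ≠ 0 := by positivity
    set X := ft T w z Y with hX
    set n := X - PS T w Y X with hn
    set g := gmF T w z Y with hg
    set n2 := w Y - w z - fderiv ℝ w Y g with hn2
    have hnn : ‖n‖ ≤ κ * ‖X‖ ^ 2 := norm_n_le H z Y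
    have hn2n : ‖n2‖ ≤ ‖n‖ := by
      rw [hn2, ← co_ft_sub_PS H z Y]; exact norm_co_le T _
    have hgX : ‖g‖ ≤ ‖X‖ := norm_gmF_le_ft H z Y
    have hcX : ‖cRm T w z Y‖ ≤ (1 + ε) * ‖X‖ := norm_cRm_le H z Y
    have hd2 : ‖D2 w Y g‖ ≤ κ * ‖X‖ :=
      ((D2 w Y).le_opNorm _).trans (by gcongr; exact hw.norm_D2_le Y)
    have h1 : HasFDerivAt (fun y => (‖ft T w z y‖ ^ 2)⁻¹)
        ((-((‖X‖ ^ 2) ^ 2)⁻¹) • ((2:ℝ) • innerSL ℝ (cRm T w z Y))) Y :=
      (hasDerivAt_inv hne).comp_hasFDerivAt Y (hasFDerivAt_norm_sq_ft H z Y)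
    have h2 := ((hasFDerivAt_nsq H z Y).mul h1).const_sub 1
    have h3 : vpm T w z = fun y => 1 - ‖ft T w z y - PS T w y (ft T w z y)‖ ^ 2
        * (‖ft T w z y‖ ^ 2)⁻¹ := by
      funext y; unfold vpm; rw [div_eq_mul_inv]
    rw [h3]
    refine ⟨_, h2, ?_⟩
    rw [norm_neg]
    have e1 : ‖‖n‖ ^ 2 • ((-((‖X‖ ^ 2) ^ 2)⁻¹) • ((2:ℝ) • innerSL ℝ (cRm T w z Y)))‖
        ≤ (κ * ‖X‖ ^ 2) ^ 2 * (((‖X‖ ^ 2) ^ 2)⁻¹ * (2 * ((1 + ε) * ‖X‖))) := by
      rw [norm_smul, norm_smul, norm_smul, norm_pow, norm_norm, norm_neg, norm_inv,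
        innerSL_apply_norm]
      have a3 : ‖(2:ℝ)‖ = 2 := by norm_num
      have a4 : ‖(‖X‖ ^ 2) ^ 2‖ = (‖X‖ ^ 2) ^ 2 := by
        rw [Real.norm_eq_abs, abs_of_nonneg (by positivity)]
      rw [a3, a4]
      gcongr
    have e2 : ‖(‖X‖ ^ 2)⁻¹ • ((-2:ℝ) • (innerSL ℝ n2).comp (D2 w Y g))‖
        ≤ (‖X‖ ^ 2)⁻¹ * (2 * ((κ * ‖X‖ ^ 2) * (κ * ‖X‖))) := by
      have a1 : ‖(innerSL ℝ n2).comp (D2 w Y g)‖ ≤ (κ * ‖X‖ ^ 2) * (κ * ‖X‖) := by
        refine (ContinuousLinearMap.opNorm_comp_le _ _).trans ?_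
        rw [innerSL_apply_norm]
        gcongr
        exact hn2n.trans hnn
      have a2 : ‖(-2:ℝ)‖ = 2 := by norm_num
      have a4 : ‖‖X‖ ^ 2‖ = ‖X‖ ^ 2 := by
        rw [Real.norm_eq_abs, abs_of_nonneg (by positivity)]
      rw [norm_smul, norm_smul, norm_inv, a2, a4]
      gcongr
    refine (norm_add_le _ _).trans ((add_le_add e1 e2).trans ?_)
    have e3 : (κ * ‖X‖ ^ 2) ^ 2 * (((‖X‖ ^ 2) ^ 2)⁻¹ * (2 * ((1 + ε) * ‖X‖)))
        + (‖X‖ ^ 2)⁻¹ * (2 * ((κ * ‖X‖ ^ 2) * (κ * ‖X‖))) = (4 + 2 * ε) * κ ^ 2 * ‖X‖ := by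
      field_simp
      ring
    rw [e3]
    gcongr
    linarith

end

/-- the normalised gradient field -/
noncomputable def beF (T : Submodule ℝ E) (w : E → E) (z Y : E) : E :=
  (vpm T w z Y)⁻¹ • gmF T w z Y

section be

variable (H : Adm T w ε κ h₁)
include H

lemma ft_base (z Y : E) : ft T w z (T.starProjection Y) = ft T w z Y := by
  unfold ft
  have h1 : T.starProjection (T.starProjection Y - z) = T.starProjection (Y - z) := by
    rw [map_sub, map_sub, star_self]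
  rw [H.ref.base, h1]

lemma vpm_base (z Y : E) : vpm T w z (T.starProjection Y) = vpm T w z Y := by
  unfold vpm
  rw [ft_base H, H.ref.PS_base]

lemma beF_base (z Y : E) : beF T w z (T.starProjection Y) = beF T w z Y := by
  unfold beF
  rw [vpm_base H, gmF_base H]

lemma star_beF (z Y : E) : T.starProjection (beF T w z Y) = beF T w z Y := by
  unfold beF
  rw [map_smul, star_gmF H]

lemma vpm_ge (hr : κ * ‖ft T w z Y‖ ≤ 1 / 8) : 63 / 64 ≤ vpm T w z Y := by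
  have h1 := one_sub_vpm_le H z Y
  have hk := H.ref.knn
  have h2 : (κ * ‖ft T w z Y‖) ^ 2 ≤ (1 / 8) ^ 2 := by gcongr
  linarith [h2, h1]

/-- **derivative of the normalised gradient field** -/
theorem exists_hasFDerivAt_beF (hr : κ * ‖ft T w z Y‖ ≤ 1 / 8) :
    ∃ b : E →L[ℝ] E, HasFDerivAt (beF T w z) b Y ∧
      ‖b - T.starProjection‖ ≤ 3 * (κ * ‖ft T w z Y‖) ∧
      (lap w (PS T w Y) Y = 0 →
        |divg w Y (beF T w z Y) b - Module.finrank ℝ T|
          ≤ (2 * Module.finrank ℝ T + 6) * (κ * ‖ft T w z Y‖) ^ 2) := by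
  have hw := H.ref
  have hk := hw.knn
  obtain ⟨L, hL, hLn⟩ := exists_hasFDerivAt_vpm H z Y
  have hv := vpm_ge H hr
  have hv1 := vpm_le_one H z Y
  set v := vpm T w z Y with hvd
  have hvpos : 0 < v := by linarith
  have hvne : vpm T w z Y ≠ 0 := hvpos.ne'
  set X := ft T w z Y with hX
  set g := gmF T w z Y with hg
  have hgX : ‖g‖ ≤ ‖X‖ := norm_gmF_le_ft H z Y
  have hinv : HasFDerivAt (fun y => (vpm T w z y)⁻¹) ((-(v ^ 2)⁻¹) • L) Y := by
    have h1 := (hasDerivAt_inv hvne).comp_hasFDerivAt Y hL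
    exact h1
  have hbe := hinv.smul (hasFDerivAt_gmF H z Y)
  refine ⟨_, hbe, ?_, ?_⟩
  · have e1 : (vpm T w z Y)⁻¹ • dgm T w z Y
        + ((-(v ^ 2)⁻¹) • L).smulRight (gmF T w z Y) - T.starProjection
        = v⁻¹ • (dgm T w z Y - T.starProjection) + (v⁻¹ - 1) • T.starProjection
          + ((-(v ^ 2)⁻¹) • L).smulRight g := by
      rw [← hvd, ← hg]; module
    rw [e1]
    have i1 : v⁻¹ ≤ 64 / 63 := by
      rw [inv_le_comm₀ hvpos (by norm_num)]; linarith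
    have i0 : 0 ≤ v⁻¹ := by positivity
    have i2 : 1 ≤ v⁻¹ := by rw [one_le_inv₀ hvpos]; exact hv1
    have i3 : v⁻¹ - 1 ≤ 64 / 63 * (κ * ‖X‖) ^ 2 := by
      have : v⁻¹ - 1 = v⁻¹ * (1 - v) := by field_simp
      rw [this]
      have := one_sub_vpm_le H z Y
      gcongr
    have i4 : (v ^ 2)⁻¹ ≤ (64 / 63) ^ 2 := by
      rw [← inv_pow]; gcongr
    have n1 : ‖dgm T w z Y - T.starProjection‖ ≤ κ * ‖X‖ :=
      (norm_dgm_sub_le H z Y).trans (by gcongr; exact norm_bx_le_ft H z Y)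
    have n2 : ‖T.starProjection‖ ≤ 1 := T.starProjection_norm_le
    have n3 : ‖((-(v ^ 2)⁻¹) • L).smulRight g‖ ≤ (64 / 63) ^ 2 * (5 * κ ^ 2 * ‖X‖) * ‖X‖ := by
      rw [ContinuousLinearMap.norm_smulRight_apply, norm_smul, norm_neg, norm_inv, norm_pow,
        Real.norm_eq_abs, abs_of_pos hvpos]
      gcongr
    set x := κ * ‖X‖ with hx
    have hx0 : 0 ≤ x := by positivity
    calc _ ≤ ‖v⁻¹ • (dgm T w z Y - T.starProjection)‖ + ‖(v⁻¹ - 1) • T.starProjection‖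
          + ‖((-(v ^ 2)⁻¹) • L).smulRight g‖ := norm_add₃_le
      _ ≤ 64 / 63 * x + 64 / 63 * x ^ 2 * 1 + (64 / 63) ^ 2 * (5 * κ ^ 2 * ‖X‖) * ‖X‖ := by
          gcongr
          · rw [norm_smul, Real.norm_eq_abs, abs_of_nonneg i0]; gcongr
          · rw [norm_smul, Real.norm_eq_abs, abs_of_nonneg (by linarith)]; gcongr
      _ = 64 / 63 * x + (64 / 63 + (64 / 63) ^ 2 * 5) * x ^ 2 := by rw [hx]; ring
      _ ≤ 3 * x := by nlinarith
  · intro hmin
    have h1 := divg_gmF H z Y hmin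
    have e1 : divg w Y (beF T w z Y) ((vpm T w z Y)⁻¹ • dgm T w z Y
        + ((-(v ^ 2)⁻¹) • L).smulRight (gmF T w z Y))
        = v⁻¹ * divg w Y (gmF T w z Y) (dgm T w z Y) - (v ^ 2)⁻¹ * L g := by
      unfold divg beF
      rw [tr_add, tr_smul, tr_smulRight, map_smul, ← hvd]
      have : Gi (fderiv ℝ w Y) * adj (fderiv ℝ w Y) * (v⁻¹ • D2 w Y (gmF T w z Y))
          = v⁻¹ • (Gi (fderiv ℝ w Y) * adj (fderiv ℝ w Y) * D2 w Y (gmF T w z Y)) := by
        rw [mul_smul_comm]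
      rw [this, tr_smul]
      have : ((-(v ^ 2)⁻¹) • L) (gmF T w z Y) = -(v ^ 2)⁻¹ * L g := rfl
      rw [this]; ring
    rw [e1, h1]
    have i1 : v⁻¹ ≤ 64 / 63 := by
      rw [inv_le_comm₀ hvpos (by norm_num)]; linarith
    have i2 : 1 ≤ v⁻¹ := by rw [one_le_inv₀ hvpos]; exact hv1
    have i3 : v⁻¹ - 1 ≤ 64 / 63 * (κ * ‖X‖) ^ 2 := by
      have : v⁻¹ - 1 = v⁻¹ * (1 - v) := by field_simp
      rw [this]
      have := one_sub_vpm_le H z Y
      gcongr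
    have i4 : (v ^ 2)⁻¹ ≤ (64 / 63) ^ 2 := by
      rw [← inv_pow]; gcongr
    have n1 : |L g| ≤ 5 * κ ^ 2 * ‖X‖ * ‖X‖ := by
      calc |L g| ≤ ‖L‖ * ‖g‖ := L.le_opNorm g
        _ ≤ _ := by gcongr
    set x := κ * ‖X‖ with hx
    have hx2 : 5 * κ ^ 2 * ‖X‖ * ‖X‖ = 5 * x ^ 2 := by rw [hx]; ring
    rw [hx2] at n1
    have hn : (0:ℝ) ≤ Module.finrank ℝ T := Nat.cast_nonneg _
    calc |v⁻¹ * (Module.finrank ℝ T : ℝ) - (v ^ 2)⁻¹ * L g - Module.finrank ℝ T|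
        = |(v⁻¹ - 1) * Module.finrank ℝ T - (v ^ 2)⁻¹ * L g| := by congr 1; ring
      _ ≤ |(v⁻¹ - 1) * Module.finrank ℝ T| + |(v ^ 2)⁻¹ * L g| := abs_sub _ _
      _ = (v⁻¹ - 1) * Module.finrank ℝ T + (v ^ 2)⁻¹ * |L g| := by
          rw [abs_of_nonneg (by have := sub_nonneg.2 i2; positivity), abs_mul,
            abs_of_nonneg (by positivity : (0:ℝ) ≤ (v ^ 2)⁻¹)]
      _ ≤ (64 / 63 * x ^ 2) * Module.finrank ℝ T + (64 / 63) ^ 2 * (5 * x ^ 2) := by
          gcongr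
      _ ≤ (2 * Module.finrank ℝ T + 6) * x ^ 2 := by
          have : 0 ≤ x ^ 2 := by positivity
          nlinarith [mul_nonneg hn this]

/-- comparison of the Fermi extension of `beF` with the ambient gradient -/
theorem norm_ze_sub_le (hY : ‖co T Y‖ < h₁) (hr : κ * ‖ft T w z Y‖ ≤ 1 / 8) :
    ‖zeF T w (beF T w z) Y - (vpm T w z Y)⁻¹ • adj (Jm T w h₁ Y) (cRm T w z Y)‖
      ≤ 4 * (κ * ‖co T Y‖) * ‖ft T w z Y‖ := by
  have hw := H.ref
  have hk := hw.knn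
  have he := eps_le H
  have hv := vpm_ge H hr
  have hvpos : 0 < vpm T w z Y := by linarith
  have e1 : zeF T w (beF T w z) Y - (vpm T w z Y)⁻¹ • adj (Jm T w h₁ Y) (cRm T w z Y)
      = (vpm T w z Y)⁻¹ • (Dm w Y (co T Y) (Gi (fderiv ℝ w Y) (cRm T w z Y))
        - adj (Jm T w h₁ Y) (cRm T w z Y)) := by
    unfold zeF beF gmF
    rw [map_smul, smul_sub]
  rw [e1, norm_smul, Real.norm_eq_abs, abs_of_pos (by positivity)]
  have h1 := norm_Dm_Gi_sub_le H hY (star_cRm H z Y)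
  have h2 := norm_cRm_le H z Y
  have i1 : (vpm T w z Y)⁻¹ ≤ 64 / 63 := by
    rw [inv_le_comm₀ hvpos (by norm_num)]; linarith
  calc _ ≤ 64 / 63 * (3 * (κ * ‖co T Y‖) * ((1 + ε) * ‖ft T w z Y‖)) := by
        gcongr
        exact h1.trans (by gcongr)
    _ ≤ 64 / 63 * (3 * (κ * ‖co T Y‖) * ((1 + 1 / 16) * ‖ft T w z Y‖)) := by gcongr
    _ ≤ 4 * (κ * ‖co T Y‖) * ‖ft T w z Y‖ := by
        have : 0 ≤ (κ * ‖co T Y‖) * ‖ft T w z Y‖ := by positivity
        nlinarith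

theorem norm_xg_sub_le (hY : ‖co T Y‖ < h₁) (z : E) :
    ‖zeF T w (gmF T w z) Y - adj (Jm T w h₁ Y) (cRm T w z Y)‖
      ≤ 4 * (κ * ‖co T Y‖) * ‖ft T w z Y‖ := by
  have hw := H.ref
  have hk := hw.knn
  have he := eps_le H
  have h1 := norm_Dm_Gi_sub_le H hY (star_cRm H z Y)
  have h2 := norm_cRm_le H z Y
  calc _ ≤ 3 * (κ * ‖co T Y‖) * ‖cRm T w z Y‖ := h1
    _ ≤ 3 * (κ * ‖co T Y‖) * ((1 + ε) * ‖ft T w z Y‖) := by gcongr
    _ ≤ 3 * (κ * ‖co T Y‖) * ((1 + 1 / 16) * ‖ft T w z Y‖) := by gcongr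
    _ ≤ 4 * (κ * ‖co T Y‖) * ‖ft T w z Y‖ := by
        have : 0 ≤ (κ * ‖co T Y‖) * ‖ft T w z Y‖ := by positivity
        nlinarith

/-- **bulk term of the normalised field** `ze = DΨ(be)`. -/
theorem bulk_be (hY : ‖co T Y‖ < h₁) {G : Set E} (hG : IsOpen G)
    (hmin : MinimalOver T w G) (hYG : T.starProjection Y ∈ G) {S : Submodule ℝ E}
    (hS : Module.finrank ℝ S = Module.finrank ℝ T) (hr : κ * ‖ft T w z Y‖ ≤ 1 / 8) :
    ∃ b : E →L[ℝ] E, HasFDerivAt (beF T w z) b Y ∧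
      ‖b - T.starProjection‖ ≤ 3 * (κ * ‖ft T w z Y‖) ∧
      |divg w Y (beF T w z Y) b - Module.finrank ℝ T|
        ≤ (2 * Module.finrank ℝ T + 6) * (κ * ‖ft T w z Y‖) ^ 2 ∧
      |tr (((fderiv ℝ (zeF T w (beF T w z)) Y).comp (Jm T w h₁ Y)).comp S.starProjection)
          - (divg w Y (beF T w z Y) b - FM.eS T w Y S.starProjection)|
        ≤ 40 * (κ * ‖co T Y‖ + κ * ‖ft T w z Y‖) * FM.eS T w Y S.starProjection
          + 3 * √(Module.finrank ℝ E) * (κ * ‖co T Y‖) * √(FM.eS T w Y S.starProjection)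
          + 3 * Module.finrank ℝ E * (κ * ‖co T Y‖) ^ 2 * (κ * ‖ft T w z Y‖) := by
  have hw := H.ref
  have hk := hw.knn
  have he := eps_le H
  have he0 := hw.eps_nonneg
  obtain ⟨b, hb, hbn, hbd⟩ := exists_hasFDerivAt_beF H (z := z) hr
  refine ⟨b, hb, hbn, hbd (hmin Y hYG), ?_⟩
  set x := κ * ‖ft T w z Y‖ with hx
  have hx0 : 0 ≤ x := by positivity
  have key := bulk_ze H hY hG hmin hYG hS hb (beF_base H z) (star_beF H z) hbn (by linarith)
  refine key.trans ?_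
  have hv := vpm_ge H hr
  have hvpos : 0 < vpm T w z Y := by linarith
  have i1 : (vpm T w z Y)⁻¹ ≤ 64 / 63 := by
    rw [inv_le_comm₀ hvpos (by norm_num)]; linarith
  have hg : κ * ‖beF T w z Y‖ ≤ 64 / 63 * x := by
    unfold beF
    rw [norm_smul, Real.norm_eq_abs, abs_of_pos (by positivity)]
    calc κ * ((vpm T w z Y)⁻¹ * ‖gmF T w z Y‖) ≤ κ * (64 / 63 * ‖ft T w z Y‖) := by
          gcongr; exact norm_gmF_le_ft H z Y
      _ = _ := by rw [hx]; ring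
  set g := κ * ‖beF T w z Y‖ with hgd
  have hg0 : 0 ≤ g := by positivity
  set u := κ * ‖co T Y‖ with hu
  have hu0 : 0 ≤ u := by positivity
  have hku : u ≤ 1 / 16 := by
    calc κ * ‖co T Y‖ ≤ κ * h₁ := by gcongr
      _ ≤ 1 / 16 := H.hκ
  have heS : 0 ≤ FM.eS T w Y S.starProjection := tilt_nonneg S (planeOf T w Y)
  set e := FM.eS T w Y S.starProjection with hed
  have hse : 0 ≤ √e := Real.sqrt_nonneg _
  have hn : (0:ℝ) ≤ Module.finrank ℝ E := Nat.cast_nonneg _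
  have h2 : κ ^ 2 * ‖co T Y‖ * ‖beF T w z Y‖ = u * g := by rw [hu, hgd]; ring
  rw [h2]
  have b1 : 16 * u + 12 * (3 * x) + 2 * g + 8 * (u * g) ≤ 40 * (u + x) := by nlinarith
  have b2 : 8 * ε * u + 8 * g * u + 4 * ε * (u * g) ≤ 3 * u := by
    have : 8 * ε * u + 8 * g * u + 4 * ε * (u * g) = u * (8 * ε + 8 * g + 4 * ε * g) := by ring
    rw [this, mul_comm 3 u]
    gcongr
    nlinarith
  have b3 : 4 * u ^ 2 * ε * g + 2 * (u * g) * u ≤ 3 * u ^ 2 * x := by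
    have : 4 * u ^ 2 * ε * g + 2 * (u * g) * u = u ^ 2 * ((4 * ε + 2) * g) := by ring
    rw [this, show 3 * u ^ 2 * x = u ^ 2 * (3 * x) by ring]
    exact mul_le_mul_of_nonneg_left (by nlinarith) (sq_nonneg u)
  calc _ ≤ (40 * (u + x)) * e + √(Module.finrank ℝ E) * (3 * u) * √e
        + Module.finrank ℝ E * (3 * u ^ 2 * x) := by gcongr
    _ = _ := by ring

end be

end Vale.Agent.P214.ODEF
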