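import Vale.Agent.P214.ODEF.Size
import Vale.Agent.P214.ODEF.Vp

/-!
# P214, block ODEF: sizes of the pieces of the defect `tau = div be - m`

With `ρ = ‖p (Y - z)‖ > 0`, `κ ρ ≤ 1/8`: `n1 = p (Y - z) - gm`, `n2 = w Y - w z - A gm` have size
`κ ρ²` up to two derivatives, `gm`, `cR` have size `ρ`.
-/

open Set Filter Topology MeasureTheory Metric
open scoped RealInnerProductSpace ContDiff

set_option linter.all false

namespace Vale.Agent.P214.ODEF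

open FV FM

variable {E : Type*} [NormedAddCommGroup E] [InnerProductSpace ℝ E] [FiniteDimensional ℝ E]
variable {T : Submodule ℝ E} {w : E → E} {ε κ h₁ : ℝ} {z Y : E}

lemma sz_adj {k : ℕ} {ρ c : ℝ} {L : E → (E →L[ℝ] E)} (hρ : 0 ≤ ρ) (hL : Sz k ρ c L Y) :
    Sz k ρ c (fun y => adj (L y)) Y := by
  refine ⟨(adj (E := E)).contDiff.comp hL.smooth, fun j hj => ?_⟩
  have h1 : iteratedFDeriv ℝ j (fun y => adj (L y)) Y
      = (adj (E := E)).compContinuousMultilinearMap (iteratedFDeriv ℝ j L Y) :=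
    (adj (E := E)).iteratedFDeriv_comp_left (n := j) (hL.contDiffAt j) le_rfl
  have h2 : ‖iteratedFDeriv ℝ j (fun y => adj (L y)) Y‖ ≤ ‖iteratedFDeriv ℝ j L Y‖ := by
    refine ContinuousMultilinearMap.opNorm_le_bound (norm_nonneg _) fun u => ?_
    rw [h1]
    show ‖adj (iteratedFDeriv ℝ j L Y u)‖ ≤ _
    rw [norm_adj]
    exact ContinuousMultilinearMap.le_opNorm _ _
  calc _ ≤ ‖iteratedFDeriv ℝ j L Y‖ * ρ ^ j := by gcongr
    _ ≤ c := hL.bound j hj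

/-- base part of the position -/
noncomputable def bxF (T : Submodule ℝ E) (z y : E) : E := T.starProjection (y - z)

/-- horizontal component of the normal part -/
noncomputable def n1F (T : Submodule ℝ E) (w : E → E) (z y : E) : E :=
  bxF T z y - gmF T w z y

/-- vertical component of the normal part -/
noncomputable def n2F (T : Submodule ℝ E) (w : E → E) (z y : E) : E :=
  (w y - w z) - fderiv ℝ w y (gmF T w z y)

lemma contDiff_bxF (T : Submodule ℝ E) (z : E) : ContDiff ℝ ∞ (bxF T z) :=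
  T.starProjection.contDiff.comp (contDiff_id.sub contDiff_const)

lemma hasFDerivAt_bxF (T : Submodule ℝ E) (z y : E) :
    HasFDerivAt (bxF T z) T.starProjection y := by
  have h := (T.starProjection.hasFDerivAt (x := y - z)).comp y ((hasFDerivAt_id y).sub_const z)
  rw [ContinuousLinearMap.comp_id] at h
  exact h

lemma fderiv_bxF (T : Submodule ℝ E) (z y : E) : fderiv ℝ (bxF T z) y = T.starProjection :=
  (hasFDerivAt_bxF T z y).fderiv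

lemma sz_bxF (k : ℕ) {ρ : ℝ} (hρ : 0 ≤ ρ) (hY : ‖bxF T z Y‖ ≤ ρ) : Sz (k + 1) ρ ρ (bxF T z) Y := by
  refine Sz.of_fderiv hρ (contDiff_bxF T z) hY (c' := 1) ?_ (by rw [one_mul])
  have h1 : fderiv ℝ (bxF T z) = fun _ => T.starProjection := by
    funext y; exact fderiv_bxF T z y
  rw [h1]
  exact Sz.const hρ _ T.starProjection_norm_le

lemma contDiff_adjA (hw : Ref T w ε κ) : ContDiff ℝ ∞ (fun y => adj (fderiv ℝ w y)) :=
  (adj (E := E)).contDiff.comp hw.smooth1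

lemma contDiff_Gi (hw : Ref T w ε κ) : ContDiff ℝ ∞ (fun y => Gi (fderiv ℝ w y)) := by
  have h1 : ContDiff ℝ ∞ (fun y => (adj (fderiv ℝ w y)).comp (fderiv ℝ w y)) :=
    (contDiff_adjA hw).clm_comp hw.smooth1
  have h2 : ContDiff ℝ ∞ (fun y => 1 + star (fderiv ℝ w y) * fderiv ℝ w y) :=
    contDiff_const.add h1
  refine contDiff_iff_contDiffAt.2 fun y => ?_
  have hu : IsUnit (1 + star (fderiv ℝ w y) * fderiv ℝ w y) :=
    isUnit_of_coercive _ one_pos (coercive_G _)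
  have h3 : ContDiffAt ℝ ∞ (Ring.inverse : (E →L[ℝ] E) → (E →L[ℝ] E)) (hu.unit : E →L[ℝ] E) :=
    contDiffAt_ringInverse ℝ hu.unit
  have h4 : (hu.unit : E →L[ℝ] E) = 1 + star (fderiv ℝ w y) * fderiv ℝ w y := rfl
  rw [h4] at h3
  exact h3.comp y h2.contDiffAt

lemma contDiff_cRm (hw : Ref T w ε κ) (z : E) : ContDiff ℝ ∞ (cRm T w z) :=
  (contDiff_bxF T z).add ((contDiff_adjA hw).clm_apply (hw.smooth.sub contDiff_const))

lemma contDiff_gmF (hw : Ref T w ε κ) (z : E) : ContDiff ℝ ∞ (gmF T w z) :=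
  (contDiff_Gi hw).clm_apply (contDiff_cRm hw z)

lemma contDiff_n1F (hw : Ref T w ε κ) (z : E) : ContDiff ℝ ∞ (n1F T w z) :=
  (contDiff_bxF T z).sub (contDiff_gmF hw z)

lemma contDiff_n2F (hw : Ref T w ε κ) (z : E) : ContDiff ℝ ∞ (n2F T w z) :=
  (hw.smooth.sub contDiff_const).sub (hw.smooth1.clm_apply (contDiff_gmF hw z))

section sizes

variable {ρ : ℝ}

lemma sz_A (hw : Ref T w ε κ) (hε : ε ≤ 1) (hρ : 0 ≤ ρ) (hκ : κ * ρ ≤ 1) :
    Sz 5 ρ 1 (fderiv ℝ w) Y := by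
  refine ⟨hw.smooth1, fun j hj => ?_⟩
  rcases j with _ | j
  · simpa using (hw.slope Y).trans hε
  · rw [norm_iteratedFDeriv_fderiv]
    have h1 := hw.bound (j + 1 + 1) (by omega) (by omega) Y
    have hk := hw.knn
    calc ‖iteratedFDeriv ℝ (j + 1 + 1) w Y‖ * ρ ^ (j + 1)
        ≤ κ ^ (j + 1 + 1 - 1) * ρ ^ (j + 1) := by gcongr
      _ = (κ * ρ) ^ (j + 1) := by rw [mul_pow]; rfl
      _ ≤ 1 := pow_le_one₀ (by positivity) hκ

lemma sz_D2 (hw : Ref T w ε κ) (hρ : 0 ≤ ρ) (hκ : κ * ρ ≤ 1) :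
    Sz 4 ρ κ (D2 w) Y := by
  refine ⟨hw.smooth2, fun j hj => ?_⟩
  have h2 : ‖iteratedFDeriv ℝ j (D2 w) Y‖ = ‖iteratedFDeriv ℝ (j + 1 + 1) w Y‖ := by
    have h0 : D2 w = fderiv ℝ (fderiv ℝ w) := rfl
    rw [h0]
    rw [norm_iteratedFDeriv_fderiv, norm_iteratedFDeriv_fderiv]
  rw [h2]
  have h1 := hw.bound (j + 1 + 1) (by omega) (by omega) Y
  have hk := hw.knn
  calc ‖iteratedFDeriv ℝ (j + 1 + 1) w Y‖ * ρ ^ j
      ≤ κ ^ (j + 1 + 1 - 1) * ρ ^ j := by gcongr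
    _ = κ * (κ * ρ) ^ j := by
        have : j + 1 + 1 - 1 = j + 1 := rfl
        rw [this, mul_pow, pow_succ]; ring
    _ ≤ κ * 1 := by gcongr; exact pow_le_one₀ (by positivity) hκ
    _ = κ := mul_one _

lemma sz_adjA (hw : Ref T w ε κ) (hε : ε ≤ 1) (hρ : 0 ≤ ρ) (hκ : κ * ρ ≤ 1) :
    Sz 5 ρ 1 (fun y => adj (fderiv ℝ w y)) Y :=
  sz_adj hρ (sz_A hw hε hρ hκ)

lemma sz_wd (hw : Ref T w ε κ) (hε : ε ≤ 1) (hρ : 0 ≤ ρ) (hκ : κ * ρ ≤ 1)
    (hY : ‖w Y - w z‖ ≤ ρ) : Sz 6 ρ ρ (fun y => w y - w z) Y := by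
  refine Sz.of_fderiv hρ (hw.smooth.sub contDiff_const) hY (c' := 1) ?_ (by rw [one_mul])
  have h1 : fderiv ℝ (fun y => w y - w z) = fderiv ℝ w := by
    funext y; rw [fderiv_sub_const]
  rw [h1]
  exact sz_A hw hε hρ hκ

lemma sz_D2v (hw : Ref T w ε κ) (hρ : 0 ≤ ρ) (hκ : κ * ρ ≤ 1) (v : E) :
    Sz 4 ρ (κ * ‖v‖) (fun y => D2 w y v) Y := (sz_D2 hw hρ hκ).eval hρ v

lemma sz_adjD2v (hw : Ref T w ε κ) (hρ : 0 ≤ ρ) (hκ : κ * ρ ≤ 1) (v : E) :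
    Sz 4 ρ (κ * ‖v‖) (fun y => adj (D2 w y v)) Y :=
  sz_adj hρ (sz_D2v hw hρ hκ v)

lemma fderiv_Gi_apply (H : Adm T w ε κ h₁) (v : E) :
    (fun y => fderiv ℝ (fun y => Gi (fderiv ℝ w y)) y v)
      = fun y => -(((Gi (fderiv ℝ w y)).comp ((adj (fderiv ℝ w y)).comp (D2 w y v)
          + (adj (D2 w y v)).comp (fderiv ℝ w y))).comp (Gi (fderiv ℝ w y))) := by
  funext y
  obtain ⟨L, hL, hLv⟩ := exists_hasFDerivAt_Gi H y
  rw [hL.fderiv, hLv]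
  rfl

lemma sz_Gi_step (H : Adm T w ε κ h₁) (hρ : 0 < ρ) (hκ : κ * ρ ≤ 1) {k : ℕ} (hk : k ≤ 4) {c : ℝ}
    (hG : Sz k ρ c (fun y => Gi (fderiv ℝ w y)) Y) (v : E) :
    Sz k ρ (2 ^ k * ((2 ^ k * (c * (2 ^ k * (1 * (κ * ‖v‖)) + 2 ^ k * ((κ * ‖v‖) * 1)))) * c))
      (fun y => fderiv ℝ (fun y => Gi (fderiv ℝ w y)) y v) Y := by
  have hw := H.ref
  have he : ε ≤ 1 := (eps_le H).trans (by norm_num)
  have a1 := ((sz_adjA (Y := Y) hw he hρ.le hκ).of_le (hk.trans (by norm_num))).comp' hρ.le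
    ((sz_D2v (Y := Y) hw hρ.le hκ v).of_le hk)
  have a2 := ((sz_adjD2v (Y := Y) hw hρ.le hκ v).of_le hk).comp' hρ.le
    ((sz_A (Y := Y) hw he hρ.le hκ).of_le (hk.trans (by norm_num)))
  have a3 := (hG.comp' hρ.le (a1.add hρ.le a2)).comp' hρ.le hG
  exact a3.neg.congr (fderiv_Gi_apply H v).symm

lemma sz_Gi (H : Adm T w ε κ h₁) (hρ : 0 < ρ) (hκ : κ * ρ ≤ 1 / 8) :
    Sz 2 ρ 2 (fun y => Gi (fderiv ℝ w y)) Y := by
  have hw := H.ref
  have hk := hw.knn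
  have h0 : Sz 0 ρ 1 (fun y => Gi (fderiv ℝ w y)) Y := by
    refine ⟨contDiff_Gi hw, fun j hj => ?_⟩
    have : j = 0 := by omega
    subst this
    simpa using norm_Gi_le (fderiv ℝ w Y)
  have h1 : Sz 1 ρ 1 (fun y => Gi (fderiv ℝ w y)) Y := by
    refine Sz.of_fderiv_apply hρ (c' := 2 * κ) (by positivity) (contDiff_Gi hw)
      (norm_Gi_le (fderiv ℝ w Y)) (fun v => ?_) (by linarith)
    refine (sz_Gi_step H hρ (hκ.trans (by norm_num)) (by norm_num) h0 v).mono (le_of_eq ?_)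
    ring
  refine Sz.of_fderiv_apply hρ (c' := 16 * κ) (by positivity) (contDiff_Gi hw)
    ((norm_Gi_le (fderiv ℝ w Y)).trans (by norm_num)) (fun v => ?_) (by linarith)
  refine (sz_Gi_step H hρ (hκ.trans (by norm_num)) (by norm_num) h1 v).mono (le_of_eq ?_)
  ring

variable (H : Adm T w ε κ h₁) (hρ : 0 < ρ) (hκ : κ * ρ ≤ 1 / 8)
  (hY : ‖T.starProjection (Y - z)‖ = ρ)
include H hρ hκ hY

lemma norm_wd_le : ‖w Y - w z‖ ≤ ρ := by
  refine (norm_w_sub_le H z Y).trans ?_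
  rw [hY]
  have := eps_le H
  nlinarith

lemma sz_cRm : Sz 2 ρ (5 * ρ) (cRm T w z) Y := by
  have hw := H.ref
  have he : ε ≤ 1 := (eps_le H).trans (by norm_num)
  have hκ' : κ * ρ ≤ 1 := hκ.trans (by norm_num)
  have a1 : Sz 2 ρ ρ (bxF T z) Y := sz_bxF 1 hρ.le hY.le
  have a2 := ((sz_adjA (Y := Y) hw he hρ.le hκ').of_le (by norm_num : 2 ≤ 5)).apply hρ.le
    ((sz_wd (z := z) hw he hρ.le hκ' (norm_wd_le H hρ hκ hY)).of_le (by norm_num : 2 ≤ 6))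
  refine (a1.add hρ.le a2).mono (le_of_eq ?_)
  ring

lemma sz_gmF : Sz 2 ρ (40 * ρ) (gmF T w z) Y := by
  refine ((sz_Gi H hρ hκ).apply hρ.le (sz_cRm H hρ hκ hY)).mono (le_of_eq ?_)
  ring

lemma sz_n2_crude : Sz 2 ρ (161 * ρ) (n2F T w z) Y := by
  have hw := H.ref
  have he : ε ≤ 1 := (eps_le H).trans (by norm_num)
  have hκ' : κ * ρ ≤ 1 := hκ.trans (by norm_num)
  have a1 := (sz_wd (z := z) hw he hρ.le hκ' (norm_wd_le H hρ hκ hY)).of_le (by norm_num : 2 ≤ 6)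
  have a2 := ((sz_A (Y := Y) hw he hρ.le hκ').of_le (by norm_num : 2 ≤ 5)).apply hρ.le
    (sz_gmF H hρ hκ hY)
  refine (a1.sub hρ.le a2).mono (le_of_eq ?_)
  ring

lemma sz_D2gm (v : E) : Sz 2 ρ (160 * (κ * ρ) * ‖v‖) (fun y => D2 w y (gmF T w z y) v) Y := by
  have hw := H.ref
  have hκ' : κ * ρ ≤ 1 := hκ.trans (by norm_num)
  have a1 := ((sz_D2 (Y := Y) hw hρ.le hκ').of_le (by norm_num : 2 ≤ 4)).apply hρ.le
    (sz_gmF H hρ hκ hY)
  refine (a1.eval hρ.le v).mono (le_of_eq ?_)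
  ring

omit hρ hκ hY in
lemma hasFDerivAt_n1F (z y : E) :
    HasFDerivAt (n1F T w z) (T.starProjection - dgm T w z y) y :=
  (hasFDerivAt_bxF T z y).sub (hasFDerivAt_gmF H z y)

omit hρ hκ hY in
lemma fderiv_n1F_apply (z v : E) :
    (fun y => fderiv ℝ (n1F T w z) y v)
      = fun y => Gi (fderiv ℝ w y) (adj (fderiv ℝ w y) (D2 w y (gmF T w z y) v))
        - Gi (fderiv ℝ w y) (adj (D2 w y v) (n2F T w z y)) := by
  funext y
  rw [(hasFDerivAt_n1F H z y).fderiv]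
  show T.starProjection v - (T.starProjection v
    + Gi (fderiv ℝ w y) (Hw w y (w y - w z - fderiv ℝ w y (gmF T w z y)) v)
    - Gi (fderiv ℝ w y) (adj (fderiv ℝ w y) (D2 w y (gmF T w z y) v))) = _
  rw [Hw_apply]
  unfold n2F
  abel

omit hρ hκ hY in
lemma hasFDerivAt_n2F (z y : E) :
    HasFDerivAt (n2F T w z) (fderiv ℝ w y * (T.starProjection - dgm T w z y)
      - D2 w y (gmF T w z y)) y := by
  have hw := H.ref
  have h1 := ((hw.diff y).hasFDerivAt.sub_const (w z)).sub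
    ((hw.diff1 y).hasFDerivAt.clm_apply (hasFDerivAt_gmF H z y))
  refine h1.congr_fderiv ?_
  ext v
  have e1 : D2 w y v (gmF T w z y) = D2 w y (gmF T w z y) v := hw.D2_symm _ _ _
  have e2 : fderiv ℝ w y (T.starProjection v) = fderiv ℝ w y v := hw.fderiv_star y v
  show fderiv ℝ w y v - (fderiv ℝ w y (dgm T w z y v) + D2 w y v (gmF T w z y))
    = fderiv ℝ w y (T.starProjection v - dgm T w z y v) - D2 w y (gmF T w z y) v
  rw [e1, map_sub, e2]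
  abel

omit hρ hκ hY in
lemma fderiv_n2F_apply (z v : E) :
    (fun y => fderiv ℝ (n2F T w z) y v)
      = fun y => fderiv ℝ w y (fderiv ℝ (n1F T w z) y v) - D2 w y (gmF T w z y) v := by
  funext y
  rw [(hasFDerivAt_n2F H z y).fderiv, (hasFDerivAt_n1F H z y).fderiv]
  rfl

lemma sz_dn1 (v : E) :
    Sz 2 ρ (10272 * (κ * ρ) * ‖v‖) (fun y => fderiv ℝ (n1F T w z) y v) Y := by
  have hw := H.ref
  have he : ε ≤ 1 := (eps_le H).trans (by norm_num)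
  have hκ' : κ * ρ ≤ 1 := hκ.trans (by norm_num)
  have a1 := (sz_Gi H hρ hκ).apply hρ.le
    (((sz_adjA (Y := Y) hw he hρ.le hκ').of_le (by norm_num : 2 ≤ 5)).apply hρ.le
      (sz_D2gm H hρ hκ hY v))
  have a2 := (sz_Gi H hρ hκ).apply hρ.le
    (((sz_adjD2v (Y := Y) hw hρ.le hκ' v).of_le (by norm_num : 2 ≤ 4)).apply hρ.le
      (sz_n2_crude H hρ hκ hY))
  refine ((a1.sub hρ.le a2).congr (fderiv_n1F_apply H z v).symm).mono (le_of_eq ?_)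
  ring

omit hρ hκ hY in
lemma star_n (z Y : E) : T.starProjection (ft T w z Y - PS T w Y (ft T w z Y)) = n1F T w z Y := by
  rw [map_sub, PS_ft H, map_add, star_gmF H, H.ref.star_fderiv, add_zero]
  unfold ft n1F bxF
  rw [map_add, star_self, map_sub T.starProjection (w Y), H.ref.perp, H.ref.perp, sub_zero,
    add_zero]

omit hρ hκ hY in
lemma norm_n_sq (z Y : E) : ‖ft T w z Y - PS T w Y (ft T w z Y)‖ ^ 2
    = ‖n1F T w z Y‖ ^ 2 + ‖n2F T w z Y‖ ^ 2 := by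
  have h2 : co T (ft T w z Y - PS T w Y (ft T w z Y)) = n2F T w z Y := co_ft_sub_PS H z Y
  have h3 := norm_sq_star_add_co T (ft T w z Y - PS T w Y (ft T w z Y))
  rw [star_n H, h2] at h3
  exact h3

lemma norm_n1_le : ‖n1F T w z Y‖ ≤ κ * ρ ^ 2 := by
  rw [← star_n H, ← hY]
  exact (norm_star_le T _).trans (norm_ft_sub_PS_le H z Y)

lemma norm_n2_le : ‖n2F T w z Y‖ ≤ κ * ρ ^ 2 := by
  have h2 : co T (ft T w z Y - PS T w Y (ft T w z Y)) = n2F T w z Y := co_ft_sub_PS H z Y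
  rw [← h2, ← hY]
  exact (norm_co_le T _).trans (norm_ft_sub_PS_le H z Y)

lemma sz_n1 : Sz 2 ρ (10272 * (κ * ρ ^ 2)) (n1F T w z) Y := by
  have hw := H.ref
  have hk := hw.knn
  have h0 : 0 ≤ κ * ρ ^ 2 := by positivity
  refine (Sz.of_fderiv_apply (k := 2) hρ (c' := 10272 * (κ * ρ)) (by positivity)
    (contDiff_n1F hw z) ((norm_n1_le H hρ hκ hY).trans (by linarith))
    (sz_dn1 H hρ hκ hY) (le_of_eq ?_)).of_le (by norm_num)
  ring

lemma sz_n2 : Sz 2 ρ (41248 * (κ * ρ ^ 2)) (n2F T w z) Y := by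
  have hw := H.ref
  have hk := hw.knn
  have he : ε ≤ 1 := (eps_le H).trans (by norm_num)
  have hκ' : κ * ρ ≤ 1 := hκ.trans (by norm_num)
  have h0 : 0 ≤ κ * ρ ^ 2 := by positivity
  refine (Sz.of_fderiv_apply (k := 2) hρ (c' := 41248 * (κ * ρ)) (by positivity)
    (contDiff_n2F hw z) ((norm_n2_le H hρ hκ hY).trans (by linarith))
    (fun v => ?_) (le_of_eq ?_)).of_le (by norm_num)
  · have a1 := ((sz_A (Y := Y) hw he hρ.le hκ').of_le (by norm_num : 2 ≤ 5)).apply hρ.le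
      (sz_dn1 H hρ hκ hY v)
    refine ((a1.sub hρ.le (sz_D2gm H hρ hκ hY v)).congr (fderiv_n2F_apply H z v).symm).mono
      (le_of_eq ?_)
    ring
  · ring

end sizes

/-! ### numerator and denominator -/

/-- squared length of the tangential part of the position vector -/
noncomputable def sgsq (T : Submodule ℝ E) (w : E → E) (z y : E) : ℝ :=
  ⟪cRm T w z y, gmF T w z y⟫

/-- squared length of the normal part of the position vector -/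
noncomputable def nsq (T : Submodule ℝ E) (w : E → E) (z y : E) : ℝ :=
  ⟪n1F T w z y, n1F T w z y⟫ + ⟪n2F T w z y, n2F T w z y⟫

/-- squared length of the position vector -/
noncomputable def xsq (T : Submodule ℝ E) (w : E → E) (z y : E) : ℝ :=
  ⟪bxF T z y, bxF T z y⟫ + ⟪w y - w z, w y - w z⟫

/-- curvature term -/
noncomputable def curv (T : Submodule ℝ E) (w : E → E) (z y : E) : ℝ :=
  ⟪n2F T w z y, D2 w y (gmF T w z y) (gmF T w z y)⟫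

/-- numerator of the defect -/
noncomputable def tauN (T : Submodule ℝ E) (w : E → E) (z y : E) : ℝ :=
  ((Module.finrank ℝ T : ℝ) - 2) * (nsq T w z y * sgsq T w z y)
    - 2 * (xsq T w z y * curv T w z y)

/-- denominator of the defect -/
noncomputable def tauD (T : Submodule ℝ E) (w : E → E) (z y : E) : ℝ :=
  sgsq T w z y * sgsq T w z y

/-- the defect `div be - m` of the normalised gradient field -/
noncomputable def tauF (T : Submodule ℝ E) (w : E → E) (z y : E) : ℝ :=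
  tauN T w z y / tauD T w z y

section id

variable (H : Adm T w ε κ h₁)
include H

lemma nsq_eq (z Y : E) : nsq T w z Y = ‖ft T w z Y - PS T w Y (ft T w z Y)‖ ^ 2 := by
  rw [norm_n_sq H]
  unfold nsq
  rw [real_inner_self_eq_norm_sq, real_inner_self_eq_norm_sq]

lemma xsq_eq (z Y : E) : xsq T w z Y = ‖ft T w z Y‖ ^ 2 := by
  have h3 := norm_sq_star_add_co T (ft T w z Y)
  have h1 : T.starProjection (ft T w z Y) = bxF T z Y := by
    unfold ft bxF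
    rw [map_add, star_self, map_sub T.starProjection (w Y), H.ref.perp, H.ref.perp, sub_zero,
      add_zero]
  have h2 : co T (ft T w z Y) = w Y - w z := by
    unfold ft
    rw [map_add, co_star, zero_add, co_apply, map_sub T.starProjection, H.ref.perp, H.ref.perp,
      sub_zero, sub_zero]
  rw [h1, h2] at h3
  unfold xsq
  rw [real_inner_self_eq_norm_sq, real_inner_self_eq_norm_sq, h3]

lemma sgsq_eq (z Y : E) : sgsq T w z Y = xsq T w z Y - nsq T w z Y := by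
  rw [nsq_eq H, xsq_eq H]
  have := norm_sq_ft_sub_PS H z Y
  unfold sgsq
  linarith

lemma nsq_nonneg (z Y : E) : 0 ≤ nsq T w z Y := by rw [nsq_eq H]; positivity

lemma nsq_le (z Y : E) : nsq T w z Y ≤ (κ * ‖ft T w z Y‖ ^ 2) ^ 2 := by
  rw [nsq_eq H]
  have := norm_n_le H z Y
  gcongr

lemma sgsq_ge (hr : κ * ‖ft T w z Y‖ ≤ 1 / 8) : 63 / 64 * ‖ft T w z Y‖ ^ 2 ≤ sgsq T w z Y := by
  rw [sgsq_eq H, xsq_eq H]
  have h1 := nsq_le H z Y
  have hk := H.ref.knn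
  have h2 : (κ * ‖ft T w z Y‖ ^ 2) ^ 2 ≤ (1 / 8) ^ 2 * ‖ft T w z Y‖ ^ 2 := by
    have : (κ * ‖ft T w z Y‖ ^ 2) ^ 2 = (κ * ‖ft T w z Y‖) ^ 2 * ‖ft T w z Y‖ ^ 2 := by ring
    rw [this]
    gcongr
  linarith [h1, h2]

end id

section bounds

variable {ρ : ℝ} (H : Adm T w ε κ h₁) (hρ : 0 < ρ) (hκ : κ * ρ ≤ 1 / 8)
  (hY : ‖T.starProjection (Y - z)‖ = ρ)
include H hρ hκ hY

lemma sz_nsq : Sz 2 ρ (10 ^ 10 * (κ ^ 2 * ρ ^ 4)) (nsq T w z) Y := by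
  have h1 := sz_n1 H hρ hκ hY
  have h2 := sz_n2 H hρ hκ hY
  have h3 : 0 ≤ κ ^ 2 * ρ ^ 4 := by positivity
  refine ((h1.inner hρ.le h1).add hρ.le (h2.inner hρ.le h2)).mono ?_
  have : 2 ^ 2 * (10272 * (κ * ρ ^ 2) * (10272 * (κ * ρ ^ 2)))
      + 2 ^ 2 * (41248 * (κ * ρ ^ 2) * (41248 * (κ * ρ ^ 2)))
      = (4 * 10272 ^ 2 + 4 * 41248 ^ 2) * (κ ^ 2 * ρ ^ 4) := by ring
  rw [this]
  gcongr
  norm_num

lemma sz_sgsq : Sz 2 ρ (800 * ρ ^ 2) (sgsq T w z) Y := by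
  refine ((sz_cRm H hρ hκ hY).inner hρ.le (sz_gmF H hρ hκ hY)).mono (le_of_eq ?_)
  ring

lemma sz_xsq : Sz 2 ρ (8 * ρ ^ 2) (xsq T w z) Y := by
  have hw := H.ref
  have he : ε ≤ 1 := (eps_le H).trans (by norm_num)
  have hκ' : κ * ρ ≤ 1 := hκ.trans (by norm_num)
  have h1 : Sz 2 ρ ρ (bxF T z) Y := sz_bxF 1 hρ.le hY.le
  have h2 := (sz_wd (z := z) hw he hρ.le hκ' (norm_wd_le H hρ hκ hY)).of_le (by norm_num : 2 ≤ 6)
  refine ((h1.inner hρ.le h1).add hρ.le (h2.inner hρ.le h2)).mono (le_of_eq ?_)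
  ring

lemma sz_curv : Sz 2 ρ (10 ^ 10 * (κ ^ 2 * ρ ^ 4)) (curv T w z) Y := by
  have hw := H.ref
  have hκ' : κ * ρ ≤ 1 := hκ.trans (by norm_num)
  have hg := sz_gmF H hρ hκ hY
  have a1 := (((sz_D2 (Y := Y) hw hρ.le hκ').of_le (by norm_num : 2 ≤ 4)).apply hρ.le hg).apply
    hρ.le hg
  have h3 : 0 ≤ κ ^ 2 * ρ ^ 4 := by positivity
  refine ((sz_n2 H hρ hκ hY).inner hρ.le a1).mono ?_
  have : 2 ^ 2 * (41248 * (κ * ρ ^ 2) * (2 ^ 2 * (2 ^ 2 * (κ * (40 * ρ)) * (40 * ρ))))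
      = 4223795200 * (κ ^ 2 * ρ ^ 4) := by ring
  rw [this]
  gcongr
  norm_num

lemma sz_tauD : Sz 2 ρ (10 ^ 7 * ρ ^ 4) (tauD T w z) Y := by
  have h1 := sz_sgsq H hρ hκ hY
  have h3 : 0 ≤ ρ ^ 4 := by positivity
  refine (h1.mul hρ.le h1).mono ?_
  have : 2 ^ 2 * (800 * ρ ^ 2 * (800 * ρ ^ 2)) = 2560000 * ρ ^ 4 := by ring
  rw [this]
  gcongr
  norm_num

lemma sz_tauN : Sz 2 ρ ((Module.finrank ℝ T + 2) * 10 ^ 15 * (κ ^ 2 * ρ ^ 6)) (tauN T w z) Y := by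
  have h3 : 0 ≤ κ ^ 2 * ρ ^ 6 := by positivity
  have hm : (0:ℝ) ≤ Module.finrank ℝ T := Nat.cast_nonneg _
  have a1 := (sz_nsq H hρ hκ hY).mul hρ.le (sz_sgsq H hρ hκ hY)
  have a2 := (sz_xsq H hρ hκ hY).mul hρ.le (sz_curv H hρ hκ hY)
  have c1 : Sz 2 ρ ((Module.finrank ℝ T : ℝ) + 2)
      (fun _ : E => (Module.finrank ℝ T : ℝ) - 2) Y := by
    refine Sz.const hρ.le _ ?_
    rw [Real.norm_eq_abs, abs_le]
    constructor <;> linarith
  have c2 : Sz 2 ρ (2:ℝ) (fun _ : E => (2:ℝ)) Y := Sz.const hρ.le _ (by norm_num)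
  refine ((c1.mul hρ.le a1).sub hρ.le (c2.mul hρ.le a2)).mono ?_
  have e1 : 2 ^ 2 * (((Module.finrank ℝ T : ℝ) + 2)
        * (2 ^ 2 * (10 ^ 10 * (κ ^ 2 * ρ ^ 4) * (800 * ρ ^ 2))))
      + 2 ^ 2 * (2 * (2 ^ 2 * (8 * ρ ^ 2 * (10 ^ 10 * (κ ^ 2 * ρ ^ 4)))))
      = (((Module.finrank ℝ T : ℝ) + 2) * (128 * 10 ^ 12) + 256 * 10 ^ 10)
        * (κ ^ 2 * ρ ^ 6) := by ring
  rw [e1]
  gcongr
  nlinarith

/-- **the defect off the fibre**: orders zero, one, two -/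
theorem tau_bounds_off (hr : κ * ‖ft T w z Y‖ ≤ 1 / 8) :
    |tauF T w z Y| ≤ (Module.finrank ℝ T + 2) * 10 ^ 31 * κ ^ 2 * ρ ^ 2 ∧
    ‖fderiv ℝ (tauF T w z) Y‖ ≤ (Module.finrank ℝ T + 2) * 10 ^ 31 * κ ^ 2 * ρ ∧
    ‖fderiv ℝ (fderiv ℝ (tauF T w z)) Y‖ ≤ (Module.finrank ℝ T + 2) * 10 ^ 31 * κ ^ 2 := by
  have hm : (0:ℝ) ≤ Module.finrank ℝ T := Nat.cast_nonneg _
  have hX : ρ ≤ ‖ft T w z Y‖ := by rw [← hY]; exact norm_bx_le_ft H z Y
  have hD : ρ ^ 4 / 2 ≤ tauD T w z Y := by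
    have h1 := sgsq_ge H hr
    have h2 : 63 / 64 * ρ ^ 2 ≤ sgsq T w z Y := by
      refine le_trans ?_ h1
      gcongr
    have h4 : 0 ≤ sgsq T w z Y := le_trans (by positivity) h2
    unfold tauD
    calc ρ ^ 4 / 2 ≤ (63 / 64 * ρ ^ 2) * (63 / 64 * ρ ^ 2) := by
          have : 0 ≤ ρ ^ 4 := by positivity
          nlinarith
      _ ≤ _ := by gcongr
  obtain ⟨b0, b1, b2⟩ := quot_bounds hρ (sz_tauN H hρ hκ hY) (sz_tauD H hρ hκ hY)
    (c := ρ ^ 4 / 2) (by positivity) hD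
  set M : ℝ := (Module.finrank ℝ T : ℝ) + 2 with hM
  have hM0 : 0 ≤ M := by positivity
  have hfun : tauF T w z = fun y => tauN T w z y / tauD T w z y := rfl
  have q0 : 0 ≤ M * κ ^ 2 * ρ ^ 2 := by positivity
  have e0 : M * 10 ^ 15 * (κ ^ 2 * ρ ^ 6) / (ρ ^ 4 / 2) = 2 * 10 ^ 15 * (M * κ ^ 2 * ρ ^ 2) := by
    field_simp
  have e1 : M * 10 ^ 15 * (κ ^ 2 * ρ ^ 6) * (10 ^ 7 * ρ ^ 4) / (ρ ^ 4 / 2) ^ 2
      = 4 * 10 ^ 22 * (M * κ ^ 2 * ρ ^ 2) := by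
    field_simp; ring
  have e2 : M * 10 ^ 15 * (κ ^ 2 * ρ ^ 6) * (10 ^ 7 * ρ ^ 4) ^ 2 / (ρ ^ 4 / 2) ^ 3
      = 8 * 10 ^ 29 * (M * κ ^ 2 * ρ ^ 2) := by
    field_simp; ring
  refine ⟨?_, ?_, ?_⟩
  · refine b0.trans ?_
    rw [e0]
    nlinarith
  · have h1 : ‖fderiv ℝ (tauF T w z) Y‖ * ρ ≤ (M * 10 ^ 31 * κ ^ 2 * ρ) * ρ := by
      rw [hfun]
      refine b1.trans ?_
      rw [e0, e1]
      nlinarith
    exact le_of_mul_le_mul_right h1 hρ
  · have h1 : ‖fderiv ℝ (fderiv ℝ (tauF T w z)) Y‖ * ρ ^ 2 ≤ (M * 10 ^ 31 * κ ^ 2) * ρ ^ 2 := by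
      rw [hfun]
      refine b2.trans ?_
      rw [mul_div_assoc (3:ℝ), mul_div_assoc (2:ℝ), e0, e1, e2]
      nlinarith
    exact le_of_mul_le_mul_right h1 (by positivity)

end bounds

end Vale.Agent.P214.ODEF
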